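import Vale.Agent.P233.H154.Loc

/-!
# The curvature inequality for test functions supported in a small ball
-/

open MeasureTheory Filter Topology
open scoped ENNReal NNReal InnerProductSpace

set_option linter.unusedSectionVars false

namespace Vale.Agent.P233.H154

open Vale.Agent.P233

section TL

variable {M : Type*} [MetricSpace M] [MeasurableSpace M] {m : Measure M} {C : Calc m}

/-- the functions of `D` supported in `A` -/
def TL (D : Set (M →ₘ[m] ℝ)) (C : Calc m) (A : Set M) : Set (M →ₘ[m] ℝ) :=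
  {f | f ∈ D ∧ ∃ θ ∈ C.TestI, θ * f = f ∧ ∀ᵐ x ∂m, x ∉ A → θ x = 0}

theorem TL_mul {D : Set (M →ₘ[m] ℝ)} {A : Set M} {f g : M →ₘ[m] ℝ} (h : f ∈ TL D C A)
    (hfg : f * g ∈ D) : f * g ∈ TL D C A := by
  obtain ⟨-, θ, hθ, h1, h2⟩ := h
  exact ⟨hfg, θ, hθ, by rw [← mul_assoc, h1], h2⟩

theorem isMod_TL' {D : Set (M →ₘ[m] ℝ)} (hC : IsGamma C) {K : ℝ} (hB : C.BEi K) (A : Set M)
    (h0 : 0 ∈ D) (hadd : ∀ f ∈ D, ∀ g ∈ D, f + g ∈ D) (hsm : ∀ c : ℝ, ∀ f ∈ D, c • f ∈ D)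
    (hmul : ∀ f ∈ D, ∀ g ∈ D, f * g ∈ D) (htop : ∀ f ∈ D, MemLp f ∞ m) :
    IsMod D (TL D C A) where
  zero := ⟨h0, 0, hC.testI_zero hB, mul_zero _, by
    filter_upwards [zero_ae (M := M) (m := m)] with x hx _
    exact hx⟩
  add := by
    rintro f ⟨hf, θ, hθ, h1, h2⟩ g ⟨hg, θ', hθ', h1', h2'⟩
    refine ⟨hadd f hf g hg, θ + θ' - θ * θ', testI_union hC hB hθ hθ', ?_, ?_⟩
    · rw [mul_add, union_mul h1, union_mul' h1']
    · filter_upwards [h2, h2', sub_ae (θ + θ') (θ * θ'), add_ae θ θ', mul_ae θ θ']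
        with x a1 a2 a3 a4 a5 hx
      rw [a3, a4, a5, a1 hx, a2 hx]
      ring
  smul := by
    rintro c f ⟨hf, θ, hθ, h1, h2⟩
    exact ⟨hsm c f hf, θ, hθ, by rw [mul_smul_comm, h1], h2⟩
  mul := by
    rintro f hf g hg
    exact TL_mul hf (hmul f hf.1 g hg)
  zeroS := h0
  smulS := hsm
  topS := htop

theorem isMod_TLI (hC : IsGamma C) {K : ℝ} (hB : C.BEi K) (A : Set M) :
    IsMod C.TestI (TL C.TestI C A) :=
  isMod_TL' hC hB A (hC.testI_zero hB) (fun _ hf _ hg => hC.testI_add hB hf hg)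
    (fun c _ hf => hC.testI_smul hB c hf) (fun _ hf _ hg => hC.testI_mul hB hf hg)
    (fun _ hf => (hC.test_A hf.1).2)

theorem isMod_TL (hC : IsGamma C) {K : ℝ} (hB : C.BEi K) (A : Set M) :
    IsMod C.Test (TL C.Test C A) :=
  isMod_TL' hC hB A (hC.test_zero hB) (fun _ hf _ hg => hC.test_add hB hf hg)
    (fun c _ hf => hC.test_smul hB c hf) (fun _ hf _ hg => hC.test_mul hB hf hg)
    (fun _ hf => (hC.test_A hf).2)

/-- products with a cut-off function converge -/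
theorem Cw_mul (hC : IsGamma C) {K : ℝ} (hB : C.BEi K) {θ f : M →ₘ[m] ℝ} {F : ℕ → M →ₘ[m] ℝ}
    (hθ : θ ∈ C.TestI) (h : C.Cw F f) (hb : ∃ B : ℝ, ∀ n, ∀ᵐ x ∂m, |F n x| ≤ B) :
    C.Cw (fun n => θ * F n) (θ * f) := by
  have hD := hC.toIsDir
  have θA := hC.test_A hθ.1
  obtain ⟨A, hA⟩ := mem_top_iff.1 θA.2
  obtain ⟨L, hL⟩ := mem_top_iff.1 (hC.test_Γ_top hθ.1)
  obtain ⟨B, hBl⟩ := mem_top_iff.1 hθ.2
  have hT := fun n => hC.test_mul hB hθ.1 (h.test n)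
  have d := fun n => test_sub' hC hB (h.test n) h.lim
  have dA := fun n => hC.test_A (d n)
  have l1 := hD.tendsto_I_sq_of_nrm2 (fun n => (hC.test_A (h.test n)).1) (hC.test_A h.lim).1 h.W
  have l2 := hD.tendsto_E_of_nrm2 (fun n => (hC.test_A (h.test n)).1) (hC.test_A h.lim).1 h.W
  refine ⟨hT, hC.test_mul hB hθ.1 h.lim, ?_, ?_, ?_⟩
  · refine squeeze_zero (g := fun n => (2 * A ^ 2 + 2 * |L|) * C.nrm2 (F n - f))
      (fun n => ?_) (fun n => ?_) (by simpa using h.W.const_mul (2 * A ^ 2 + 2 * |L|))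
    · rw [← mul_sub]
      exact hD.nrm2_nonneg (hD.mul_mem_A θA (dA n)).1
    · rw [← mul_sub]
      exact hD.nrm2_mul_le θA hA hL (dA n)
  · have lim : Tendsto (fun n => 3 * A ^ 2 * I ((C.lap (F n) - C.lap f) ^ 2)
        + 3 * B ^ 2 * I ((F n - f) ^ 2) + 12 * |L| * I (C.Γ (F n - f) (F n - f))) atTop (𝓝 0) := by
      simpa using ((h.lap.const_mul (3 * A ^ 2)).add (l1.const_mul (3 * B ^ 2))).add
        (l2.const_mul (12 * |L|))
    refine squeeze_zero (fun n => I_sq_nonneg _) (fun n => ?_) lim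
    have e : C.lap (θ * F n) - C.lap (θ * f) = θ * (C.lap (F n) - C.lap f)
        + (F n - f) * C.lap θ + (2 : ℝ) • C.Γ θ (F n - f) := by
      rw [hC.lap_mul hB hθ.1 (h.test n), hC.lap_mul hB hθ.1 h.lim,
        hD.Γ_sub_right θA.1 (hC.test_A (h.test n)).1 (hC.test_A h.lim).1]
      algebra
    have lm : MemLp (C.lap (F n) - C.lap f : M →ₘ[m] ℝ) 2 m :=
      mem_sub (hC.test_isLap (h.test n)).2.1 (hC.test_isLap h.lim).2.1
    have dm := hC.memLp _ (dA n).1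
    have gm := hC.mem1 _ (dA n).1
    have m1 : MemLp (θ * (C.lap (F n) - C.lap f) : M →ₘ[m] ℝ) 2 m := mem_mul_top θA.2 lm
    have m2 : MemLp ((F n - f) * C.lap θ : M →ₘ[m] ℝ) 2 m := mem_top_mul dm hθ.2
    have m3 : MemLp (C.Γ θ (F n - f)) 2 m := hD.Γ_mem2 θA.1 (hC.test_Γ_top hθ.1) (dA n).1
    rw [e, ← I_smul, ← I_smul, ← I_smul, ← I_add (mem_smul _ (mem_sq lm)) (mem_smul _ (mem_sq dm)),
      ← I_add (mem_add (mem_smul _ (mem_sq lm)) (mem_smul _ (mem_sq dm))) (mem_smul _ gm)]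
    refine I_mono (mem_sq (mem_add (mem_add m1 m2) (mem_smul _ m3)))
      (mem_add (mem_add (mem_smul _ (mem_sq lm)) (mem_smul _ (mem_sq dm))) (mem_smul _ gm)) ?_
    rw [le_iff_ae]
    filter_upwards [sq_ae (θ * (C.lap (F n) - C.lap f) + (F n - f) * C.lap θ
        + (2 : ℝ) • C.Γ θ (F n - f)),
      add_ae (θ * (C.lap (F n) - C.lap f) + (F n - f) * C.lap θ) ((2 : ℝ) • C.Γ θ (F n - f)),
      add_ae (θ * (C.lap (F n) - C.lap f)) ((F n - f) * C.lap θ),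
      mul_ae θ (C.lap (F n) - C.lap f), mul_ae (F n - f) (C.lap θ),
      smul_ae (C.Γ θ (F n - f)) (2 : ℝ),
      add_ae ((3 * A ^ 2) • (C.lap (F n) - C.lap f) ^ 2 + (3 * B ^ 2) • (F n - f) ^ 2)
        ((12 * |L|) • C.Γ (F n - f) (F n - f)),
      add_ae ((3 * A ^ 2) • (C.lap (F n) - C.lap f) ^ 2) ((3 * B ^ 2) • (F n - f) ^ 2),
      smul_ae ((C.lap (F n) - C.lap f) ^ 2) (3 * A ^ 2), smul_ae ((F n - f) ^ 2) (3 * B ^ 2),
      smul_ae (C.Γ (F n - f) (F n - f)) (12 * |L|), sq_ae (C.lap (F n) - C.lap f),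
      sq_ae (F n - f), hA, hL, hBl, hD.Γ_cs_ae θA.1 (dA n).1, hD.Γ_nonneg_ae (dA n).1,
      hD.Γ_nonneg_ae θA.1]
      with x a1 a2 a3 a4 a5 a6 a7 a8 a9 a10 a11 a12 a13 b1 b2 b3 b4 b5 b6
    rw [a1, a2, a3, a4, a5, a6, a7, a8, a9, a10, a11, a12, a13]
    set l := (C.lap (F n) - C.lap f : M →ₘ[m] ℝ) x
    set dd := (F n - f : M →ₘ[m] ℝ) x
    set g := (C.Γ θ (F n - f)) x
    set G := (C.Γ (F n - f) (F n - f)) x
    have c1 : θ x ^ 2 * l ^ 2 ≤ A ^ 2 * l ^ 2 :=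
      mul_le_mul_of_nonneg_right (sq_le_sq.2 (b1.trans (le_abs_self A))) (sq_nonneg _)
    have c2 : dd ^ 2 * C.lap θ x ^ 2 ≤ dd ^ 2 * B ^ 2 :=
      mul_le_mul_of_nonneg_left (sq_le_sq.2 (b3.trans (le_abs_self B))) (sq_nonneg _)
    have c3 : g ^ 2 ≤ |L| * G := by
      refine b4.trans (mul_le_mul_of_nonneg_right ?_ b5)
      exact (le_abs_self _).trans (b2.trans (le_abs_self L))
    nlinarith [sq_nonneg (θ x * l - dd * C.lap θ x), sq_nonneg (θ x * l - 2 * g),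
      sq_nonneg (dd * C.lap θ x - 2 * g)]
  · obtain ⟨B', hB'⟩ := hb
    obtain ⟨G, hG⟩ := h.bd
    refine ⟨2 * A ^ 2 * |G| + 2 * B' ^ 2 * |L|, fun n => ?_⟩
    have FA := hC.test_A (h.test n)
    have e : C.Γ (θ * F n) (θ * F n) = θ ^ 2 * C.Γ (F n) (F n)
        + (2 : ℝ) • (θ * F n * C.Γ θ (F n)) + F n ^ 2 * C.Γ θ θ := by
      have n1 := (hC.test_A (hT n)).1
      rw [hD.Γ_mul_left θA FA n1, hD.Γ_mul_right θA FA FA.1, hD.Γ_mul_right θA FA θA.1,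
        hC.symm _ FA.1 _ θA.1]
      algebra
    rw [e]
    filter_upwards [add_ae (θ ^ 2 * C.Γ (F n) (F n) + (2 : ℝ) • (θ * F n * C.Γ θ (F n)))
        (F n ^ 2 * C.Γ θ θ), add_ae (θ ^ 2 * C.Γ (F n) (F n)) ((2 : ℝ) • (θ * F n * C.Γ θ (F n))),
      mul_ae (θ ^ 2) (C.Γ (F n) (F n)), sq_ae θ, smul_ae (θ * F n * C.Γ θ (F n)) (2 : ℝ),
      mul_ae (θ * F n) (C.Γ θ (F n)), mul_ae θ (F n), mul_ae (F n ^ 2) (C.Γ θ θ), sq_ae (F n),
      hA, hL, hB' n, hG n, hD.Γ_cs_ae θA.1 FA.1, hD.Γ_nonneg_ae FA.1, hD.Γ_nonneg_ae θA.1]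
      with x a1 a2 a3 a4 a5 a6 a7 a8 a9 b1 b2 b3 b4 b5 b6 b7
    rw [a1, a2, a3, a4, a5, a6, a7, a8, a9]
    have c1 : θ x ^ 2 * C.Γ (F n) (F n) x ≤ A ^ 2 * |G| :=
      mul_le_mul (sq_le_sq.2 (b1.trans (le_abs_self A))) (b4.trans (le_abs_self G)) b6
        (sq_nonneg A)
    have c2 : F n x ^ 2 * C.Γ θ θ x ≤ B' ^ 2 * |L| :=
      mul_le_mul (sq_le_sq.2 (b3.trans (le_abs_self B')))
        ((le_abs_self _).trans (b2.trans (le_abs_self L))) b7 (sq_nonneg B')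
    have c3 : (2 * (θ x * F n x * C.Γ θ (F n) x)) ^ 2
        ≤ (θ x ^ 2 * C.Γ (F n) (F n) x + F n x ^ 2 * C.Γ θ θ x) ^ 2 := by
      have h2 : (2 * (θ x * F n x * C.Γ θ (F n) x)) ^ 2 =
          4 * (θ x ^ 2 * F n x ^ 2 * C.Γ θ (F n) x ^ 2) := by ring
      have h3 : θ x ^ 2 * F n x ^ 2 * C.Γ θ (F n) x ^ 2 ≤
          θ x ^ 2 * F n x ^ 2 * (C.Γ θ θ x * C.Γ (F n) (F n) x) :=
        mul_le_mul_of_nonneg_left b5 (by positivity)
      rw [h2]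
      linarith only [sq_nonneg (θ x ^ 2 * C.Γ (F n) (F n) x - F n x ^ 2 * C.Γ θ θ x), h3]
    have c4 : 0 ≤ θ x ^ 2 * C.Γ (F n) (F n) x + F n x ^ 2 * C.Γ θ θ x := by positivity
    have c5 := (le_abs_self _).trans (abs_le_of_sq_le_sq c3 c4)
    linarith

end TL

section ball

variable {M : Type*} [MetricSpace M] [SecondCountableTopology M] [MeasurableSpace M]
  [BorelSpace M] {m : Measure M} [m.IsOpenPosMeasure]

theorem bsupp_of_ball {x₀ : M} {ρ : ℝ} {θ : M →ₘ[m] ℝ}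
    (h : ∀ᵐ x ∂m, x ∉ {x | dist x x₀ ≤ ρ} → θ x = 0) : BSupp θ := by
  refine ⟨x₀, ρ, ?_⟩
  filter_upwards [h] with x hx hd
  exact hx (by simpa using hd)

/-- the core inequality for densities supported in a ball -/
theorem core_ball {K N : ℝ} (hM : ABSp m K N) {κ r₀ CL : ℝ} (hr₀ : 0 < r₀) (hCL : 0 ≤ CL) {x₀ : M}
    {ρ : ℝ} (hρ : 0 < ρ) (hL : LSSon {x | dist x x₀ ≤ ρ} κ r₀ CL) {a b φ : M →ₘ[m] ℝ}
    (ha : a ∈ (sob m).TestI) (hb : b ∈ (sob m).TestI)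
    (hφ : φ ∈ TL (sob m).TestI (sob m) {x | dist x x₀ ≤ ρ / 3}) (hφ0 : 0 ≤ φ) :
    (sob m).CoreAt κ (2 * |κ|) a b φ := by
  have hC := hM.hC
  have hB := hM.hB
  obtain ⟨hφI, θ, hθ, h1, h2⟩ := hφ
  obtain ⟨χ, hχ, χ0, χ1, χ2, χ3⟩ := exists_cut_loc hM x₀ (show 0 < 2 * ρ / 9 by positivity)
  obtain ⟨η, hη, η0, η1, η2, η3⟩ := exists_cut_loc hM x₀ (show 0 < ρ / 3 by positivity)
  have χθ : χ * θ = θ := by
    rw [eq_iff_ae]
    filter_upwards [χ2, h2, mul_ae χ θ] with x a1 a2 a3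
    rw [a3]
    by_cases hx : dist x x₀ ≤ ρ / 3
    · rw [a1 (by linarith), one_mul]
    · rw [a2 (by simpa using hx), mul_zero]
  have ηχ : η * χ = χ := by
    rw [eq_iff_ae]
    filter_upwards [η2, χ3, mul_ae η χ] with x a1 a2 a3
    rw [a3]
    rcases le_or_gt (dist x x₀) (2 * (ρ / 3)) with hx | hx
    · rw [a1 hx, one_mul]
    · rw [a2 (by linarith), mul_zero]
  have χφ : χ * φ = φ := by
    rw [← h1, ← mul_assoc, χθ]
  have χA : ∀ᵐ x ∂m, x ∉ {x | dist x x₀ ≤ ρ} → χ x = 0 := by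
    filter_upwards [χ3] with x hx h
    have h' : ¬ dist x x₀ ≤ ρ := h
    exact hx (by linarith [not_le.1 h'])
  have ηA : ∀ᵐ x ∂m, x ∉ {x | dist x x₀ ≤ ρ} → η x = 0 := by
    filter_upwards [η3] with x hx h
    have h' : ¬ dist x x₀ ≤ ρ := h
    exact hx (by linarith [not_le.1 h'])
  have ha' := hC.testI_mul hB hθ ha
  have hb' := hC.testI_mul hB hθ hb
  have χa : χ * (θ * a) = θ * a := by rw [← mul_assoc, χθ]
  have χb : χ * (θ * b) = θ * b := by rw [← mul_assoc, χθ]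
  have key := core_nice_aux hM (κ := κ) ha' hb' hφI hφ0 χφ (bsupp_of_ball χA) hη
    (bsupp_of_ball ηA) ηA χA (fun k hk F hF hF1 e he Fη Fsupp FA t ht =>
      lim_eps hM hr₀ hCL hL ha' hb' hF hη hχ hk hF1 η0 χa χb ηχ he Fη Fsupp FA t ht)
  have e : ∀ a : M →ₘ[m] ℝ, EqOn φ a (θ * a) := fun a => by
    unfold EqOn
    calc φ * a = (θ * φ) * a := by rw [h1]
      _ = _ := by ring
  exact EqOn.coreAt hC hB hφI.1 ha.1 ha'.1 hb.1 hb'.1 (e a) (e b) key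

variable {E : Type*} [NormedAddCommGroup E] [InnerProductSpace ℝ E]
  {Gr : (M →ₘ[m] ℝ) → M → E} {U : (M →ₘ[m] ℝ) → (M →ₘ[m] ℝ) → M → E}

/-- the curvature inequality for gradients and densities supported in a ball -/
theorem pos_ball {K N : ℝ} (hM : ABSp m K N) (hG : IsGrad (sob m) Gr) (hU : IsHU (sob m) Gr U)
    {κ r₀ CL : ℝ} (hr₀ : 0 < r₀) (hCL : 0 ≤ CL) {x₀ : M}
    {ρ : ℝ} (hρ : 0 < ρ) (hL : LSSon {x | dist x x₀ ≤ ρ} κ r₀ CL) :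
    ∀ a ∈ (sob m).Test, ∀ b ∈ (sob m).Test,
      ∀ f ∈ TL (sob m).Test (sob m) {x | dist x x₀ ≤ 2 * ρ / 9}, 0 ≤ f →
      0 ≤ I ((sob m).rkI (UUof m U) κ a b b a f) := by
  have hC := hM.hC
  have hB := hM.hB
  have : SigmaFinite m := sigmaFinite_of_ball hM.hfin
  set A : Set M := {x | dist x x₀ ≤ ρ / 3} with hA
  have hmod := isMod_TLI hC hB A
  have hTA : ∀ f ∈ TL (sob m).TestI (sob m) A, f ∈ (sob m).A := fun f hf => hC.test_A hf.1.1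
  have hT1 : ∀ f ∈ TL (sob m).TestI (sob m) A, MemLp f 1 m := by
    rintro f ⟨hf, θ, hθ, h1, h2⟩
    exact ((bsupp_of_ball h2).mul h1).mem1 hM.hfin (hC.test_A hf.1).2
  have hSd : ∀ f ∈ (sob m).W, ∀ ε > 0, ∃ g ∈ (sob m).TestI, g ∈ (sob m).W ∧
      (sob m).nrm2 (g - f) < ε := by
    intro f hf ε hε
    obtain ⟨g, h1, h2⟩ := hC.testI_dense hB hf hε
    exact ⟨g, h1, hC.tW h1.1, h2⟩
  have stepI : ∀ a ∈ (sob m).TestI, ∀ b ∈ (sob m).TestI, ∀ f ∈ TL (sob m).TestI (sob m) A,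
      0 ≤ f → 0 ≤ I ((sob m).rkI (UUof m U) κ a b b a f) := by
    intro a ha b hb
    exact loc_all hC hB hG hU hmod hTA hSd ha.1 hb.1
      (elim_t hC hB hG hU hmod hTA hT1 hSd ha.1 hb.1 (K := 2 * |κ|) (by positivity)
        fun φ hφ hφ0 => core_ball hM hr₀ hCL hρ hL ha hb hφ hφ0)
  intro a ha b hb f hf hf0
  obtain ⟨hfT, θ, hθ, h1, h2⟩ := hf
  obtain ⟨u, u1, u2, -, -⟩ := hC.Cw_J hB ha
  obtain ⟨v, v1, v2, -, -⟩ := hC.Cw_J hB hb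
  obtain ⟨F, F1, F2, F3, F4⟩ := hC.Cw_J hB hfT
  obtain ⟨χ, hχ, χ0, χ1, χ2, χ3⟩ := exists_cut_loc hM x₀ (show 0 < ρ / 9 by positivity)
  have χθ : χ * θ = θ := by
    rw [eq_iff_ae]
    filter_upwards [χ2, h2, mul_ae χ θ] with x a1 a2 a3
    rw [a3]
    by_cases hx : dist x x₀ ≤ 2 * ρ / 9
    · rw [a1 (by linarith), one_mul]
    · rw [a2 (by simpa using hx), mul_zero]
  -- a nonnegative cut-off function
  obtain ⟨T, hT⟩ : ∃ T : M →ₘ[m] ℝ, T = θ * θ := ⟨_, rfl⟩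
  have hTI : T ∈ (sob m).TestI := by rw [hT]; exact hC.testI_mul hB hθ hθ
  have hT0 : 0 ≤ T := by rw [hT, ← sq]; exact sq_nonneg' θ
  have Tf : T * f = f := by rw [hT, mul_assoc, h1, h1]
  obtain ⟨B, hB1⟩ := F3
  have hlim := Cw_mul hC hB hTI F1 ⟨B, hB1⟩
  rw [Tf] at hlim
  obtain ⟨B2, hB2⟩ := mem_top_iff.1 (hC.test_A hTI.1).2
  refine hC.rkI_lim hB hG hU u1 v1 hlim ⟨|B2| * B, fun n => ?_⟩ fun n =>
    stepI _ (u2 n) _ (v2 n) _ ⟨hC.testI_mul hB hTI (F2 n), χ, hχ, ?_, ?_⟩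
      (mul_nonneg hT0 (F4 hf0 n))
  · filter_upwards [mul_ae T (F n), hB1 n, hB2] with x b1 b2 b3
    rw [b1, abs_mul]
    exact mul_le_mul (b3.trans (le_abs_self _)) b2 (abs_nonneg _) (abs_nonneg _)
  · rw [hT]
    calc χ * (θ * θ * F n) = (χ * θ) * (θ * F n) := by ring
      _ = θ * θ * F n := by rw [χθ]; ring
  · filter_upwards [χ3] with x hx h
    have h' : ¬ dist x x₀ ≤ ρ / 3 := h
    exact hx (by linarith [not_le.1 h'])

end ball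

section field

variable {M : Type*} [MetricSpace M] [MeasurableSpace M] {m : Measure M} {C : Calc m}
variable {E : Type*} [NormedAddCommGroup E] [InnerProductSpace ℝ E]
  {Gr : (M →ₘ[m] ℝ) → M → E} {U : (M →ₘ[m] ℝ) → (M →ₘ[m] ℝ) → M → E}

/-- from gradients to fields -/
theorem fields_loc (hC : IsGamma C) {K : ℝ} (hB : C.BEi K) {UU : UUT m} (hU : C.IsUU UU)
    {κ' : ℝ} {A : Set M}
    (hpos : ∀ a ∈ C.Test, ∀ b ∈ C.Test, ∀ φ ∈ TL C.Test C A, 0 ≤ φ →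
      0 ≤ I (C.rkI UU κ' a b b a φ))
    {ι ι' : Type*} [Fintype ι] [Fintype ι'] {d x : ι → M →ₘ[m] ℝ} {e y : ι' → M →ₘ[m] ℝ}
    (hd : ∀ i, d i ∈ C.Test) (he : ∀ i, e i ∈ C.Test) (hx : ∀ i, x i ∈ C.Test)
    (hy : ∀ i, y i ∈ C.Test) {φ : M →ₘ[m] ℝ} (hφ : φ ∈ TL C.Test C A) (hφ0 : 0 ≤ φ) :
    0 ≤ ∑ j, ∑ l, ∑ i, ∑ k,
      I (C.rkI UU κ' (d i) (e j) (e l) (d k) (φ * (y j * y l) * (x i * x k))) := by
  have hT := isMod_TL hC hB A
  have lin : ∀ {P Q R : M →ₘ[m] ℝ} {t : ℝ}, MemLp Q 1 m → MemLp R 1 m → P = Q + t • R →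
      I P = I Q + t * I R := by
    intro P Q R t hQ hR h
    rw [h, I_add hQ (mem_smul _ hR), I_smul]
  have tA : ∀ {f : M →ₘ[m] ℝ}, f ∈ TL C.Test C A → f ∈ C.A := fun hf => hC.test_A hf.1
  refine biquad hT (hC.isLin_test hB) (fun a b c d φ => I (C.rkI UU κ' a b c d φ))
    ?_ ?_ ?_ ?_ ?_ hpos hd he (fun i => hT.AP_of_A (hx i)) (fun i => hT.AP_of_A (hy i)) hφ hφ0
  · intro a ha a' ha' b hb c hc d hd φ hφ t
    exact lin (hC.rkI_mem hB hU ha hb hc hd (tA hφ)) (hC.rkI_mem hB hU ha' hb hc hd (tA hφ))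
      (hC.rkI_lin1 hB t hU ha ha' hb hc hd (hC.tW hφ.1))
  · intro a ha a' ha' b hb c hc d hd φ hφ t
    exact lin (hC.rkI_mem hB hU hb ha hc hd (tA hφ)) (hC.rkI_mem hB hU hb ha' hc hd (tA hφ))
      (hC.rkI_lin2 hB t hU ha ha' hb hc hd (hC.tW hφ.1))
  · intro a ha a' ha' b hb c hc d hd φ hφ t
    exact lin (hC.rkI_mem hB hU hb hc ha hd (tA hφ)) (hC.rkI_mem hB hU hb hc ha' hd (tA hφ))
      (hC.rkI_lin3 hB t hU ha ha' hb hc hd (hC.tW hφ.1))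
  · intro a ha a' ha' b hb c hc d hd φ hφ t
    exact lin (hC.rkI_mem hB hU hb hc hd ha (tA hφ)) (hC.rkI_mem hB hU hb hc hd ha' (tA hφ))
      (hC.rkI_lin4 hB t hU ha ha' hb hc hd)
  · intro φ hφ φ' hφ' a ha b hb c hc d hd t
    exact lin (hC.rkI_mem hB hU ha hb hc hd (tA hφ)) (hC.rkI_mem hB hU ha hb hc hd (tA hφ'))
      (hC.rkI_linφ t ha hb (hC.tW hφ.1) (hC.tW hφ'.1))

variable {H : Type*} [NormedAddCommGroup H] [InnerProductSpace ℝ H] [CompleteSpace H]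
  [SigmaFinite m] (hC : IsGamma C) {κ κ' : ℝ} (hB : C.BEi κ) (hG : IsGrad C Gr)
  (hU : IsHU C Gr U) {ι : List ((M →ₘ[m] ℝ) × (M →ₘ[m] ℝ)) → H} (hι : C.IsL2TM ι)
  {X Y : List ((M →ₘ[m] ℝ) × (M →ₘ[m] ℝ))} (hX : C.IsTestV X) (hY : C.IsTestV Y)

include hC hB hG hU hι hX hY

/-- the curvature functional of fields in terms of the functional of gradients -/
theorem curv_sum {f : M →ₘ[m] ℝ} (hf : f ∈ C.Test) :
    C.curv ι X Y Y X f - κ' * I (f * (C.ip X X * C.ip Y Y - C.ip X Y ^ 2))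
      = ∑ j : Fin Y.length, ∑ l : Fin Y.length, ∑ i : Fin X.length, ∑ k : Fin X.length,
        I (C.rkI (UUof m U) κ' (X[i.1]).2 (Y[j.1]).2 (Y[l.1]).2 (X[k.1]).2
          (f * ((Y[j.1]).1 * (Y[l.1]).1) * ((X[i.1]).1 * (X[k.1]).1))) := by
  obtain ⟨g1, g2, g3⟩ := glue hC hB hG hU hι hX hY
  rw [g3 f hf, fin_e1, fin_e2]
  have hUU := hU.isUU hC hB hG
  have hX' : ∀ i : Fin X.length, (X[i.1]).1 ∈ C.Test ∧ (X[i.1]).2 ∈ C.Test :=
    fun i => hX _ (List.getElem_mem _)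
  have hY' : ∀ i : Fin Y.length, (Y[i.1]).1 ∈ C.Test ∧ (Y[i.1]).2 ∈ C.Test :=
    fun i => hY _ (List.getElem_mem _)
  have ht := fun (j l : Fin Y.length) (i k : Fin X.length) =>
    fin_term hC hB (κ' := κ') hUU hf (hX' i) (hY' j) (hY' l) (hX' k)
  rw [fin_big fun j l i k => (ht j l i k).1, fin_big fun j l i k => (ht j l i k).2.1]
  have h5 : ∀ (j l : Fin Y.length) (i k : Fin X.length),
      I (C.rkI (UUof m U) κ' (X[i.1]).2 (Y[j.1]).2 (Y[l.1]).2 (X[k.1]).2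
        (f * ((Y[j.1]).1 * (Y[l.1]).1) * ((X[i.1]).1 * (X[k.1]).1)))
      = I (C.omI (UUof m U) f (X[i.1]) (Y[j.1]) (Y[l.1]) (X[k.1]))
        - κ' * I (finW C f (X[i.1]) (Y[j.1]) (Y[l.1]) (X[k.1])) :=
    fun j l i k => (ht j l i k).2.2
  simp only [h5, Finset.sum_sub_distrib, ← Finset.mul_sum]

/-- the curvature functional is additive in the density -/
theorem curv_add {f g : M →ₘ[m] ℝ} (hf : f ∈ C.Test) (hg : g ∈ C.Test) :
    C.curv ι X Y Y X (f + g) = C.curv ι X Y Y X f + C.curv ι X Y Y X g := by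
  have hUU := hU.isUU hC hB hG
  have hX' : ∀ i : Fin X.length, (X[i.1]).1 ∈ C.Test ∧ (X[i.1]).2 ∈ C.Test :=
    fun i => hX _ (List.getElem_mem _)
  have hY' : ∀ i : Fin Y.length, (Y[i.1]).1 ∈ C.Test ∧ (Y[i.1]).2 ∈ C.Test :=
    fun i => hY _ (List.getElem_mem _)
  have e1 := curv_sum (κ' := 0) hC hB hG hU hι hX hY hf
  have e2 := curv_sum (κ' := 0) hC hB hG hU hι hX hY hg
  have e3 := curv_sum (κ' := 0) hC hB hG hU hι hX hY (hC.test_add hB hf hg)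
  simp only [zero_mul, sub_zero] at e1 e2 e3
  rw [e1, e2, e3]
  simp only [← Finset.sum_add_distrib]
  refine Finset.sum_congr rfl fun j _ => Finset.sum_congr rfl fun l _ =>
    Finset.sum_congr rfl fun i _ => Finset.sum_congr rfl fun k _ => ?_
  have t : ∀ {φ : M →ₘ[m] ℝ}, φ ∈ C.Test →
      φ * ((Y[j.1]).1 * (Y[l.1]).1) * ((X[i.1]).1 * (X[k.1]).1) ∈ C.Test := fun hφ =>
    hC.test_mul hB (hC.test_mul hB hφ (hC.test_mul hB (hY' j).1 (hY' l).1))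
      (hC.test_mul hB (hX' i).1 (hX' k).1)
  have e : (f + g) * ((Y[j.1]).1 * (Y[l.1]).1) * ((X[i.1]).1 * (X[k.1]).1)
      = f * ((Y[j.1]).1 * (Y[l.1]).1) * ((X[i.1]).1 * (X[k.1]).1)
        + (1 : ℝ) • (g * ((Y[j.1]).1 * (Y[l.1]).1) * ((X[i.1]).1 * (X[k.1]).1)) := by
    rw [one_smul]; ring
  rw [e, hC.rkI_linφ 1 (hX' i).2 (hY' j).2 (hC.tW (t hf)) (hC.tW (t hg)), one_smul,
    I_add (hC.rkI_mem hB hUU (hX' i).2 (hY' j).2 (hY' l).2 (hX' k).2 (hC.test_A (t hf)))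
      (hC.rkI_mem hB hUU (hX' i).2 (hY' j).2 (hY' l).2 (hX' k).2 (hC.test_A (t hg)))]

/-- the curvature inequality for fields and densities supported in `A` -/
theorem sec_loc {A : Set M} (hpos : ∀ a ∈ C.Test, ∀ b ∈ C.Test, ∀ φ ∈ TL C.Test C A, 0 ≤ φ →
      0 ≤ I (C.rkI (UUof m U) κ' a b b a φ)) {f : M →ₘ[m] ℝ} (hf : f ∈ TL C.Test C A)
    (hf0 : 0 ≤ f) :
    κ' * I (f * (C.ip X X * C.ip Y Y - C.ip X Y ^ 2)) ≤ C.curv ι X Y Y X f := by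
  have hUU := hU.isUU hC hB hG
  have hX' : ∀ i : Fin X.length, (X[i.1]).1 ∈ C.Test ∧ (X[i.1]).2 ∈ C.Test :=
    fun i => hX _ (List.getElem_mem _)
  have hY' : ∀ i : Fin Y.length, (Y[i.1]).1 ∈ C.Test ∧ (Y[i.1]).2 ∈ C.Test :=
    fun i => hY _ (List.getElem_mem _)
  have key := fields_loc hC hB hUU hpos
    (d := fun i : Fin X.length => (X[i.1]).2) (x := fun i : Fin X.length => (X[i.1]).1)
    (e := fun i : Fin Y.length => (Y[i.1]).2) (y := fun i : Fin Y.length => (Y[i.1]).1)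
    (fun i => (hX' i).2) (fun i => (hY' i).2) (fun i => (hX' i).1) (fun i => (hY' i).1) hf hf0
  have e := curv_sum (κ' := κ') hC hB hG hU hι hX hY hf.1
  simp only at key
  rw [← e] at key
  linarith

end field

end Vale.Agent.P233.H154
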