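import Vale.Agent.P233.AB.StmtAB

/-!
# Local and variable lower curvature bounds: definitions
-/

open MeasureTheory

universe u

namespace Vale.Agent.P233.T

/-- Any two points are joined by a geodesic. -/
def IsGeodesic (M : Type u) [MetricSpace M] : Prop :=
  ∀ x y : M, ∀ s t : ℝ, 0 ≤ s → 0 ≤ t → s + t = dist x y → ∃ w, dist x w = s ∧ dist w y = t

/-- Curvature `≥ κ` near `z` in the sense of Alexandrov: lower triangle comparison for all geodesic
triangles with vertices `p, x, y` in some ball around `z` (`w` is a point of the side `xy`). -/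
def CurvNear (M : Type u) [MetricSpace M] (κ : ℝ) (z : M) : Prop :=
  ∃ r > 0, ∀ p x y w : M, dist z p < r → dist z x < r → dist z y < r →
    dist x w + dist w y = dist x y →
    Cmp κ (dist p x) (dist p y) (dist x w) (dist w y) (dist p w)

section

variable {M : Type u} [MetricSpace M] [MeasurableSpace M] (m : Measure M) {H : Type u}
  [NormedAddCommGroup H] [InnerProductSpace ℝ H] (ι : VF M → H)

/-- `R(X,Y,Y,X)(f) ≥ ∫ k f (|X|²|Y|² - ⟨X,Y⟩²) dm` for all test vector fields `X`, `Y`. -/
def SecGE (k f : M → ℝ) : Prop :=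
  ∀ X Y, (sob m).TestV X → (sob m).TestV Y → (sob m).CurvGE ι X Y f
    (∫ x, k x * (f x * ((sob m).ip X X x * (sob m).ip Y Y x - (sob m).ip X Y x ^ 2)) ∂m)

/-- Distributional sectional curvature `≥ κ` near `z`: for all test vector fields and all
nonnegative test functions supported in some ball around `z`. -/
def SecNear (κ : ℝ) (z : M) : Prop :=
  ∃ r > 0, ∀ f, (sob m).Test f → (∀ᵐ x ∂m, 0 ≤ f x) → (∀ᵐ x ∂m, r ≤ dist z x → f x = 0) →
    SecGE m ι (fun _ => κ) f

end

/-- `L²(TM)` exists, and
(a) curvature `≥ κ` near `z` in the sense of Alexandrov implies distributional sectional curvature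
`≥ κ` near `z`;
(b) for a continuous function `k` and a compact set `A`: if the distributional sectional curvature
is `≥ κ` near `z` for all `z ∈ A` and `κ < k z`, then `R(X,Y,Y,X)(f) ≥ ∫ k f (|X|²|Y|² - ⟨X,Y⟩²)`
for all test functions `f ≥ 0` that vanish outside `A`;
(c) if `M` is proper and `k` is continuous and bounded, then this bound holds for all test functions
`f ≥ 0` if and only if the distributional sectional curvature is `≥ κ` near `z` for all `z ∈ M` and
`κ < k z`. -/
def LocalSec {M : Type u} [MetricSpace M] [MeasurableSpace M] (m : Measure M) : Prop :=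
  ∃ (H : Type u) (_ : NormedAddCommGroup H) (_ : InnerProductSpace ℝ H) (ι : VF M → H),
    (sob m).IsL2TM ι ∧
    (∀ κ z, CurvNear M κ z → SecNear m ι κ z) ∧
    (∀ (k : M → ℝ) (A : Set M), Continuous k → IsCompact A →
      (∀ z ∈ A, ∀ κ < k z, SecNear m ι κ z) →
      ∀ f, (sob m).Test f → (∀ᵐ x ∂m, 0 ≤ f x) → (∀ᵐ x ∂m, x ∉ A → f x = 0) → SecGE m ι k f) ∧
    (ProperSpace M → ∀ k : M → ℝ, Continuous k → (∃ B : ℝ, ∀ x, |k x| ≤ B) →
      ((∀ f, (sob m).Test f → (∀ᵐ x ∂m, 0 ≤ f x) → SecGE m ι k f) ↔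
        ∀ z, ∀ κ < k z, SecNear m ι κ z))

end Vale.Agent.P233.T
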