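import Vale.Agent.P233.H154.Metric

/-!
# The core inequality on a ball with curvature bounded below

Local version of the corresponding part of `Vale.Agent.P233.Bd3.B10`: the quadratic (1+3)-point
inequality is only required for centres in a set `A` off which the density vanishes.
-/

set_option linter.all false

open MeasureTheory Filter Topology
open scoped ENNReal NNReal

namespace Vale.Agent.P233.H154

open Vale.Agent.P233

/-- the quadratic (1+3)-point inequality with centres in `A` -/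
def LSSon {M : Type*} [MetricSpace M] (A : Set M) (κ r₀ C : ℝ) : Prop :=
  ∀ z ∈ A, ∀ (x₁ x₂ x₃ : M) (r : ℝ), dist z x₁ ≤ r → dist z x₂ ≤ r → dist z x₃ ≤ r → r ≤ r₀ →
      dist x₁ x₂ ^ 2 + dist x₂ x₃ ^ 2 + dist x₁ x₃ ^ 2
        + κ / 4 * (2 * (dist z x₁ ^ 2 * dist z x₂ ^ 2 + dist z x₂ ^ 2 * dist z x₃ ^ 2
        + dist z x₁ ^ 2 * dist z x₃ ^ 2) - (dist z x₁ ^ 4 + dist z x₂ ^ 4 + dist z x₃ ^ 4))
        ≤ 3 * (dist z x₁ ^ 2 + dist z x₂ ^ 2 + dist z x₃ ^ 2) + C * r ^ 6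

/-- dual form of the quadratic (1+3)-point inequality -/
theorem dual_lss {M : Type*} [MetricSpace M] {κ r₀ C : ℝ} {A : Set M} (hr₀ : 0 < r₀) (hC : 0 ≤ C)
    (h : LSSon A κ r₀ C) (t : Fin 3 → ℝ) (L : ℝ) (hL : 0 ≤ L) :
    ∃ C₁ ≥ 0, ∃ ε₀ > 0, ∀ ε, 0 < ε → ε ≤ ε₀ → ∀ ξ : ℝ, 0 ≤ ξ →
      ∀ u₁₂ w₁₂ u₁₃ w₁₃ u₂₃ w₂₃ : M → ℝ,
      (∀ f ∈ ({u₁₂, w₁₂, u₁₃, w₁₃, u₂₃, w₂₃} : Set (M → ℝ)),
        (∀ x y, |f x - f y| ≤ L * dist x y) ∧ ∃ b, ∀ x, |f x| ≤ b) →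
      (∀ x y, w₁₂ y - u₁₂ x ≤ dist x y ^ 2 / (2 * ε) + ξ) →
      (∀ x y, w₁₃ y - u₁₃ x ≤ dist x y ^ 2 / (2 * ε) + ξ) →
      (∀ x y, w₂₃ y - u₂₃ x ≤ dist x y ^ 2 / (2 * ε) + ξ) →
      ∀ z ∈ A, -(ε ^ 3 * (κ / 24 * HH t + |κ| / 8 * (t 0 ^ 2 + t 1 ^ 2 + t 2 ^ 2))) - C₁ * ε ^ 5 - ξ
        ≤ (⨅ y, ((u₁₂ y + u₁₃ y) / 3 + cst κ t 0 ε (dist z y)))
          + (⨅ y, ((u₂₃ y - w₁₂ y) / 3 + cst κ t 1 ε (dist z y)))
          + (⨅ y, (-(w₁₃ y + w₂₃ y) / 3 + cst κ t 2 ε (dist z y))) := by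
  set R : ℝ := 4 * L + 4 with hR
  have hR0 : 0 < R := by positivity
  set Bt : ℝ := |bet κ t 0| + |bet κ t 1| + |bet κ t 2| + 1 with hBt
  have hBt0 : 0 < Bt := by (clear * -; positivity)
  refine ⟨C * R ^ 6 / 6, by positivity, min 1 (min (1 / (4 * Bt)) (r₀ / R)), by (clear * - hr₀ hL; positivity), ?_⟩
  intro ε hε hε0 ξ hξ u₁₂ w₁₂ u₁₃ w₁₃ u₂₃ w₂₃ hf h12 h13 h23 z hzA
  have hε1 : ε ≤ 1 := hε0.trans (min_le_left _ _)
  have hε2 : ε ≤ 1 / (4 * Bt) := hε0.trans ((min_le_right _ _).trans (min_le_left _ _))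
  have hε3 : ε ≤ r₀ / R := hε0.trans ((min_le_right _ _).trans (min_le_right _ _))
  have hRε : R * ε ≤ r₀ := by
    rw [le_div_iff₀ hR0] at hε3; linarith
  have hBε : Bt * ε ^ 2 ≤ 1 / 4 := by
    rw [le_div_iff₀ (by (clear * -; positivity))] at hε2
    (by_contra nlg; linarith only [nlg, mul_nonneg (sub_nonneg.2 hε1) (sub_nonneg.2 hε1), mul_nonneg (le_of_lt (sub_pos.2 hε)) (sub_nonneg.2 hε2), mul_nonneg (le_of_lt (sub_pos.2 hε)) (sub_nonneg.2 hε1), mul_nonneg (le_of_lt (sub_pos.2 (not_le.1 nlg))) (sub_nonneg.2 hε1), mul_pos (sub_pos.2 (not_le.1 nlg)) (sub_pos.2 hε)])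
  have : Nonempty M := ⟨z⟩
  -- localisation
  have loc : ∀ (f : M → ℝ), (∀ x y, |f x - f y| ≤ L * dist x y) → ∀ i : Fin 3, ∀ x : M,
      ∃ x' : M, dist z x' ≤ R * ε ∧
        f x' + cst κ t i ε (dist z x') ≤ f x + cst κ t i ε (dist z x) := by
    intro f hfL i x
    by_cases hx : dist z x ≤ R * ε
    · exact ⟨x, hx, le_refl _⟩
    · push Not at hx
      refine ⟨z, by rw [dist_self]; positivity, ?_⟩
      have h1 := (abs_le.1 (hfL x z)).1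
      rw [dist_comm] at h1
      have hd : 0 ≤ dist z x := dist_nonneg
      have h2 : cst κ t i ε (dist z z) = 0 := by
        rw [dist_self]; simp [cst]
      have hbi : bet κ t i ≤ Bt := by
        have h3 : |bet κ t i| ≤ Bt := by
          have a0 := abs_nonneg (bet κ t 0)
          have a1 := abs_nonneg (bet κ t 1)
          have a2 := abs_nonneg (bet κ t 2)
          fin_cases i <;> simp only [hBt] <;> simp <;> linarith
        exact (le_abs_self _).trans h3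
      have h4 : (1 : ℝ) / 4 ≤ 1 / 2 - bet κ t i * ε ^ 2 := by
        have : bet κ t i * ε ^ 2 ≤ Bt * ε ^ 2 := mul_le_mul_of_nonneg_right hbi (by positivity)
        linarith only [this, hBε]
      have h5 : L * dist z x ≤ cst κ t i ε (dist z x) := by
        have h6 : 0 ≤ (|κ| / 8 * ε ^ 2) * dist z x ^ 4 / ε ^ 3 := by (clear * - hε; positivity)
        have h7 : 1 / 4 * dist z x ^ 2 / ε ≤ (1 / 2 - bet κ t i * ε ^ 2) * dist z x ^ 2 / ε := by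
          gcongr
        have h8 : L * dist z x ≤ 1 / 4 * dist z x ^ 2 / ε := by
          rw [le_div_iff₀ hε]
          have h9 : L * ε ≤ 1 / 4 * dist z x := by linarith only [hx, hε]
          (by_contra nlg; linarith only [nlg, mul_nonneg (sub_nonneg.2 hd) (sub_nonneg.2 h9), mul_nonneg (le_of_lt (sub_pos.2 (not_le.1 nlg))) (sub_nonneg.2 hε1), mul_pos (sub_pos.2 (not_le.1 nlg)) (sub_pos.2 hε)])
        rw [cst]; linarith only [h8, h7, h6]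
      rw [h2]
      linarith only [h5, h1]
  -- the inequality for points
  have main : ∀ x0 x1 x2 : M,
      -(ε ^ 3 * (κ / 24 * HH t + |κ| / 8 * (t 0 ^ 2 + t 1 ^ 2 + t 2 ^ 2)))
        - C * R ^ 6 / 6 * ε ^ 5 - ξ
        ≤ ((u₁₂ x0 + u₁₃ x0) / 3 + cst κ t 0 ε (dist z x0))
          + ((u₂₃ x1 - w₁₂ x1) / 3 + cst κ t 1 ε (dist z x1))
          + (-(w₁₃ x2 + w₂₃ x2) / 3 + cst κ t 2 ε (dist z x2)) := by
    intro x0 x1 x2
    have lip2 : ∀ (f g : M → ℝ), (∀ x y, |f x - f y| ≤ L * dist x y) →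
        (∀ x y, |g x - g y| ≤ L * dist x y) → ∀ x y : M,
        |f x - f y| + |g x - g y| ≤ 3 * (L * dist x y) := by
      intro f g hf hg x y
      have := mul_nonneg hL (dist_nonneg (x := x) (y := y))
      linarith [hf x y, hg x y]
    have l12 := (hf u₁₂ (by simp)).1
    have lw12 := (hf w₁₂ (by simp)).1
    have l13 := (hf u₁₃ (by simp)).1
    have lw13 := (hf w₁₃ (by simp)).1
    have l23 := (hf u₂₃ (by simp)).1
    have lw23 := (hf w₂₃ (by simp)).1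
    obtain ⟨y0, hy0, hy0'⟩ := loc (fun y => (u₁₂ y + u₁₃ y) / 3) (by
      intro x y
      have h1 := lip2 _ _ l12 l13 x y
      have h2 := abs_add_le (u₁₂ x - u₁₂ y) (u₁₃ x - u₁₃ y)
      have h3 : (u₁₂ x + u₁₃ x) / 3 - (u₁₂ y + u₁₃ y) / 3
        = ((u₁₂ x - u₁₂ y) + (u₁₃ x - u₁₃ y)) / 3 := by ring
      rw [h3, abs_div, abs_of_pos (show (0 : ℝ) < 3 by norm_num), div_le_iff₀ (by norm_num)]
      linarith only [h2, h1]) 0 x0
    obtain ⟨y1, hy1, hy1'⟩ := loc (fun y => (u₂₃ y - w₁₂ y) / 3) (by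
      intro x y
      have h1 := lip2 _ _ l23 lw12 x y
      have h2 := abs_sub (u₂₃ x - u₂₃ y) (w₁₂ x - w₁₂ y)
      have h3 : (u₂₃ x - w₁₂ x) / 3 - (u₂₃ y - w₁₂ y) / 3
        = ((u₂₃ x - u₂₃ y) - (w₁₂ x - w₁₂ y)) / 3 := by ring
      rw [h3, abs_div, abs_of_pos (show (0 : ℝ) < 3 by norm_num), div_le_iff₀ (by norm_num)]
      linarith only [h2, h1]) 1 x1
    obtain ⟨y2, hy2, hy2'⟩ := loc (fun y => -(w₁₃ y + w₂₃ y) / 3) (by
      intro x y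
      have h1 := lip2 _ _ lw13 lw23 x y
      have h2 := abs_add_le (w₁₃ x - w₁₃ y) (w₂₃ x - w₂₃ y)
      have h3 : -(w₁₃ x + w₂₃ x) / 3 - -(w₁₃ y + w₂₃ y) / 3
        = -(((w₁₃ x - w₁₃ y) + (w₂₃ x - w₂₃ y)) / 3) := by ring
      rw [h3, abs_neg, abs_div, abs_of_pos (show (0 : ℝ) < 3 by norm_num),
        div_le_iff₀ (by norm_num)]
      linarith only [h2, h1]) 2 x2
    refine le_trans ?_ (add_le_add (add_le_add hy0' hy1') hy2')
    have hl := h z hzA y0 y1 y2 (R * ε) hy0 hy1 hy2 hRε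
    have hr := dual_real κ ε hε t (dist z y0 ^ 2) (dist z y1 ^ 2) (dist z y2 ^ 2)
    have e12 := h12 y0 y1
    have e13 := h13 y0 y2
    have e23 := h23 y1 y2
    have hε6 : 0 < 6 * ε := by positivity
    have hl2 : (dist y0 y1 ^ 2 + dist y1 y2 ^ 2 + dist y0 y2 ^ 2) / (6 * ε)
        ≤ (3 * (dist z y0 ^ 2 + dist z y1 ^ 2 + dist z y2 ^ 2)
          - κ / 4 * (2 * (dist z y0 ^ 2 * dist z y1 ^ 2 + dist z y1 ^ 2 * dist z y2 ^ 2
          + dist z y0 ^ 2 * dist z y2 ^ 2)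
          - ((dist z y0 ^ 2) ^ 2 + (dist z y1 ^ 2) ^ 2 + (dist z y2 ^ 2) ^ 2))) / (6 * ε)
          + C * R ^ 6 / 6 * ε ^ 5 := by
      have h5 : C * R ^ 6 / 6 * ε ^ 5 = (C * (R * ε) ^ 6) / (6 * ε) := by
        have := hε.ne'
        field_simp
      rw [h5, ← add_div]
      apply div_le_div_of_nonneg_right _ hε6.le
      have h6 : ∀ x : ℝ, (x ^ 2) ^ 2 = x ^ 4 := fun x => by ring
      rw [h6, h6, h6]
      linarith only [hl]
    have e3 : (dist y0 y1 ^ 2 + dist y1 y2 ^ 2 + dist y0 y2 ^ 2) / (6 * ε)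
        = (dist y0 y1 ^ 2 / (2 * ε) + dist y1 y2 ^ 2 / (2 * ε) + dist y0 y2 ^ 2 / (2 * ε)) / 3 := by
      have := hε.ne'
      field_simp
      ring
    have c0 : ∀ (i : Fin 3) (d : ℝ), cst κ t i ε d = (1 / 2 - bet κ t i * ε ^ 2) * d ^ 2 / ε
        + (|κ| / 8 * ε ^ 2) * (d ^ 2) ^ 2 / ε ^ 3 := by
      intro i d; rw [cst]; ring_nf
    rw [c0, c0, c0]
    linarith only [e3, hl2, e23, e13, e12, hr]
  exact inf3 _ _ _ _ main

/-- The standing assumptions on the metric measure space: `RCD(K,N)` (with `K ≤ 0`), geodesic. -/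
structure ABSp {M : Type*} [MetricSpace M] [MeasurableSpace M] (m : Measure M) (K N : ℝ) :
    Prop where
  hfin : ∀ (x : M) (r : ℝ), m (Metric.ball x r) < ∞
  hq : ∀ f ∈ (sob m).W, ∀ g ∈ (sob m).W,
    ∫ x, (slope (f + g) ^ 2) x ∂m + ∫ x, (slope (f - g) ^ 2) x ∂m
      = 2 * ∫ x, (slope f ^ 2) x ∂m + 2 * ∫ x, (slope g ^ 2) x ∂m
  hK : K ≤ 0
  hN : 0 < N
  hBN : (sob m).BE K N
  hSL : ∀ f ∈ (sob m).W, slope f ≤ 1 → ∃ u : M → ℝ, LipschitzWith 1 u ∧ f =ᵐ[m] u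
  geo : ∀ (x y : M) (s t : ℝ), 0 ≤ s → 0 ≤ t → s + t = dist x y →
    ∃ w, dist x w = s ∧ dist w y = t

theorem ABSp.hC {M : Type*} [MetricSpace M] [SecondCountableTopology M] [MeasurableSpace M]
    [BorelSpace M] {m : Measure M} {K N : ℝ} (h : ABSp m K N) : IsGamma (sob m) :=
  isGamma_sob h.hfin h.hq h.hSL

theorem ABSp.hB {M : Type*} [MetricSpace M] [SecondCountableTopology M] [MeasurableSpace M]
    [BorelSpace M] {m : Measure M} {K N : ℝ} (h : ABSp m K N) : (sob m).BEi K :=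
  h.hC.bei h.hN h.hBN

section

variable {M : Type*} [MetricSpace M] [SecondCountableTopology M] [MeasurableSpace M]
  [BorelSpace M] {m : Measure M} [m.IsOpenPosMeasure]

/-- One pair at scale `ε`: existence of dual potentials `U`, `V` with an almost optimal value.
`L` and `K₁` do not depend on `δ` and the approximations; `h` ranges over test functions close
to `g`, with gradient and Laplacian bounds `Λ`. -/
theorem eps_pair {K N : ℝ} (hM : ABSp m K N) (a b F θ g : M →ₘ[m] ℝ) (hg : g ∈ (sob m).A)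
    (η : ℝ) (v e : ℝ × ℝ) :
    ∃ K₁ ≥ 0, ∀ δ, 0 < δ → δ ≤ 1 → ∀ X : Dat m, X.Ok (sob m) θ η δ → X.a = a → X.b = b →
      X.F = F → ∀ h ∈ (sob m).TestI, (sob m).nrm2 (h - g) ≤ (2 * δ) ^ 2 →
      ∃ L ≥ 0, ∃ ε₀ > 0, ∀ ε, 0 < ε → ε ≤ ε₀ → ∀ ξ > 0, ∃ U V : M → ℝ,
        (∀ x y, |U x - U y| ≤ L * dist x y) ∧ (∀ x y, |V x - V y| ≤ L * dist x y) ∧
        (∃ b, ∀ x, |U x| ≤ b) ∧ (∃ b, ∀ x, |V x| ≤ b) ∧
        (∀ x y, V y - U x ≤ dist x y ^ 2 / (2 * ε) + ξ) ∧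
        X.actP (sob m) v e h ε - K₁ * δ * ε ^ 3 - ξ
          ≤ (∫ x, V x * X.rho (sob m) (ε • (v + e)) x ∂m)
            - ∫ x, U x * X.rho (sob m) (ε • v) x ∂m := by
  have hC : IsGamma (sob m) := hM.hC
  have hB : (sob m).BEi K := hM.hB
  haveI : SigmaFinite m := sigmaFinite_of_ball hM.hfin
  obtain ⟨CH, hCH, Kρ, hKρ, hpair⟩ := Dat.pairH hC hB a b F θ g hg η v e
  obtain ⟨c, hc⟩ : ∃ c : ℝ, c = (|e.1| + |e.2|) ^ 2 + 1 := ⟨_, rfl⟩
  have hc0 : 0 < c := by rw [hc]; (clear * -; positivity)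
  refine ⟨10 * CH * c + 100 * Kρ * c ^ 2, by positivity,
    fun δ hδ hδ1 X hX hXa hXb hXF h hh hhg => ?_⟩
  obtain ⟨ε₁, hε₁, hp⟩ := hpair δ hδ hδ1 X hX hXa hXb hXF h hh hhg
  have peI := Dat.pt_memI hC hB hX e
  have GI : (2 : ℝ)⁻¹ • X.G' e e ∈ (sob m).TestI :=
    hC.testI_smul hB _ (Dat.G'_memI hC hB hX e e)
  obtain ⟨Kb, hKb0, hKb⟩ := hC.pot_bounds hB peI hh GI
  have hcl := Dat.e_close hC hB hX hδ.le e
  rw [← hc] at hcl
  obtain ⟨ε₂, hε₂, hac⟩ := hC.ac_lower hB peI hh GI (δ := c * δ) (L := 4 * Kb)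
    (Λ := Kb + 8 * |K| * Kb) (CH := CH) (Kρ := Kρ) (by positivity) hcl (by positivity)
    (by (clear * - hKb0; positivity)) hCH hKρ
  refine ⟨2 * √Kb + 1, by positivity, min (min ε₁ ε₂) 1, by positivity,
    fun ε hε hεle ξ hξ => ?_⟩
  have hε1 : ε ≤ ε₁ := hεle.trans ((min_le_left _ _).trans (min_le_left _ _))
  have hε2 : ε ≤ ε₂ := hεle.trans ((min_le_left _ _).trans (min_le_right _ _))
  have hε3 : ε ≤ 1 := hεle.trans (min_le_right _ _)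
  obtain ⟨σ₀, hσ₀, hσ⟩ := hac ε hε hε2 (X.rho (sob m) (ε • v))
    (X.r (sob m) (ε • v) e - X.D (sob m) e) (X.r (sob m) e e)
    (Dat.e_rho_memA hC hB hX _)
    (hC.toIsDir.A_sub (Dat.r_memA hC hB hX _ _) (Dat.D_memA hC hB hX _))
    (Dat.r_memA hC hB hX _ _)
    (by
      intro t ht
      have h1 := hp ε hε hε1 t ht
      rw [Dat.e_rho hC hB hX, Dat.e_r_sub hC hB hX, Dat.e_ph] at h1
      exact h1) ξ hξ
  -- the viscosity
  obtain ⟨Λ, hΛ⟩ : ∃ Λ : ℝ, Λ = Kb + 8 * |K| * Kb := ⟨_, rfl⟩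
  have hΛ0 : 0 ≤ Λ := by rw [hΛ]; (clear * - hKb0; positivity)
  obtain ⟨σ, hσd⟩ : ∃ σ : ℝ, σ = min σ₀ (min (1 / (8 * |K| + 1)) (ξ / (2 * (Λ + 1)))) := ⟨_, rfl⟩
  have hσ0 : 0 < σ := by rw [hσd]; (clear * - hσ₀ hξ hΛ0; positivity)
  have hσ1 : σ ≤ σ₀ := by rw [hσd]; exact min_le_left _ _
  have hσ2 : σ ≤ 1 / (8 * |K| + 1) := by
    rw [hσd]; exact (min_le_right _ _).trans (min_le_left _ _)
  have hσ3 : σ ≤ ξ / (2 * (Λ + 1)) := by
    rw [hσd]; exact (min_le_right _ _).trans (min_le_right _ _)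
  have h8 : 8 * |K| * σ * ε ≤ 1 := by
    have h9 : 8 * |K| * σ ≤ 1 := by
      calc 8 * |K| * σ ≤ (8 * |K| + 1) * (1 / (8 * |K| + 1)) := by
            refine mul_le_mul (by linarith) hσ2 hσ0.le (by (clear * -; positivity))
        _ = 1 := by field_simp
    calc 8 * |K| * σ * ε ≤ 1 * 1 := mul_le_mul h9 hε3 hε.le zero_le_one
      _ = 1 := one_mul 1
  have hΛσ : Λ * σ * ε ≤ ξ / 2 := by
    have h9 : Λ * σ ≤ ξ / 2 := by
      calc Λ * σ ≤ (Λ + 1) * (ξ / (2 * (Λ + 1))) := by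
            refine mul_le_mul (by linarith) hσ3 hσ0.le (by positivity)
        _ = ξ / 2 := by field_simp
    calc Λ * σ * ε ≤ ξ / 2 * 1 := mul_le_mul h9 hε3 hε.le (by positivity)
      _ = ξ / 2 := mul_one _
  -- the scheme
  have hKb' := hKb ε 0 le_rfl hε.le hε3
  simp only [zero_smul, sub_zero] at hKb'
  have hφT : X.pt e + ε • h ∈ (sob m).Test :=
    hC.test_add' peI.1 (hC.test_smul' ε hh.1)
  obtain ⟨D, N₀, hex⟩ := hC.exists_vhj hB hφT hKb'.2.1 hKb'.1 hσ0 hε h8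
  obtain ⟨n₁, hn₁⟩ := hσ σ hσ0 hσ1 D
  obtain ⟨n₂, hn₂⟩ := pt_vhj (D := D) hM.hfin hM.hq hM.hSL hB hM.geo hσ0.le hε
    (show (0 : ℝ) ≤ 4 * Kb by (clear * - hKb0; positivity)) hΛ0 (half_pos hξ)
  obtain ⟨n, hn⟩ : ∃ n : ℕ, n = max (max N₀ n₁) (max n₂ 1) := ⟨_, rfl⟩
  have hnN : N₀ ≤ n := by omega
  have hn1 : n₁ ≤ n := by omega
  have hn2 : n₂ ≤ n := by omega
  have hn0 : 0 < n := by omega
  obtain ⟨u, hu0, huV⟩ := hex n hnN hn0
  have huV' : (sob m).VHJ σ (ε / n) (4 * Kb) Λ D n u := by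
    refine huV.mono le_rfl ?_
    rw [hΛ]
    have : 8 * |K| * ε * Kb ≤ 8 * |K| * 1 * Kb := by gcongr
    linarith only [this]
  have hG0 : 0 < 2 * √Kb + 1 := by (clear * -; positivity)
  have hG2 : 4 * Kb ≤ (2 * √Kb + 1) ^ 2 := by
    linarith only [Real.sqrt_nonneg Kb, Real.sq_sqrt hKb0]
  have hrep : ∀ k ≤ n, ∃ U : M → ℝ, (∀ x y, |U x - U y| ≤ (2 * √Kb + 1) * dist x y) ∧
      (∃ b, ∀ x, |U x| ≤ b) ∧ u k =ᵐ[m] U := by
    intro k hk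
    have hA := hC.test_A (huV'.test k)
    obtain ⟨U, hU1, hU2⟩ := exists_lip_rep hM.hSL hA.1 hG0 (by
      filter_upwards [huV'.grad k hk] with x hx
      exact hx.trans hG2)
    obtain ⟨B, hBk⟩ := mem_top_iff.1 hA.2
    refine ⟨U, hU1, ⟨B, ?_⟩, hU2⟩
    refine le_of_ae_cont (m := m) (u := fun x => |U x|) (v := fun _ => B)
      (lipschitz_of_abs_sub_le hG0.le hU1).continuous.abs continuous_const ?_
    filter_upwards [hBk, hU2] with x a1 a2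
    rwa [a2] at a1
  obtain ⟨U, hU1, hU2, hU3⟩ := hrep 0 (Nat.zero_le n)
  obtain ⟨V, hV1, hV2, hV3⟩ := hrep n le_rfl
  refine ⟨U, V, hU1, hV1, hU2, hV2, fun x y => ?_, ?_⟩
  · have h1 := hn₂ n hn2 u huV' U V (lipschitz_of_abs_sub_le hG0.le hU1).continuous
      (lipschitz_of_abs_sub_le hG0.le hV1).continuous hU3 hV3 x y
    linarith only [h1, hΛσ]
  · have h1 := hn₁ n hn1 hn0 u (by rw [← hΛ]; exact huV') hu0
    have e1 : ∫ x, V x * X.rho (sob m) (ε • (v + e)) x ∂m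
        = I (u n * (X.rho (sob m) (ε • v) + ε • (X.r (sob m) (ε • v) e - X.D (sob m) e)
          + (ε ^ 2 / 2) • X.r (sob m) e e)) := by
      rw [← Dat.e_rho hC hB hX, ← smul_add]
      unfold I
      refine integral_congr_ae ?_
      filter_upwards [hV3, mul_ae (u n) (X.rho (sob m) (ε • (v + e)))] with x a1 a2
      rw [a2, a1]
    have e2 : ∫ x, U x * X.rho (sob m) (ε • v) x ∂m = I (u 0 * X.rho (sob m) (ε • v)) := by
      unfold I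
      refine integral_congr_ae ?_
      filter_upwards [hU3, mul_ae (u 0) (X.rho (sob m) (ε • v))] with x a1 a2
      rw [a2, a1]
    have e3 : X.actP (sob m) v e h ε = ∫ t in (0:ℝ)..ε,
        (I ((X.pt e + ε • h - t • ((2 : ℝ)⁻¹ • X.G' e e))
            * (X.r (sob m) (ε • v) e - X.D (sob m) e + t • X.r (sob m) e e))
          - 2⁻¹ * I ((X.rho (sob m) (ε • v) + t • (X.r (sob m) (ε • v) e - X.D (sob m) e)
            + (t^2/2) • X.r (sob m) e e) *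
            (sob m).Γ (X.pt e + ε • h - t • ((2 : ℝ)⁻¹ • X.G' e e))
              (X.pt e + ε • h - t • ((2 : ℝ)⁻¹ • X.G' e e)))) := by
      unfold Dat.actP
      refine intervalIntegral.integral_congr fun t _ => ?_
      simp only [Dat.e_ph]
      rw [Dat.e_rho hC hB hX, Dat.e_r_sub hC hB hX]
    rw [e1, e2, e3]
    refine le_trans ?_ h1
    have h2 : (10 * CH * (c * δ) + 100 * Kρ * (c * δ) ^ 2) * ε ^ 3
        ≤ (10 * CH * c + 100 * Kρ * c ^ 2) * δ * ε ^ 3 := by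
      refine mul_le_mul_of_nonneg_right ?_ (by positivity)
      have h3 : 0 ≤ Kρ * c ^ 2 * (δ * (1 - δ)) := by
        have : 0 ≤ δ * (1 - δ) := mul_nonneg hδ.le (by linarith only [hδ1])
        (clear * - hKρ hc0 hδ hδ1; positivity)
      linarith only [h3]
    linarith only [h2]

end

section

variable {M : Type*} [MetricSpace M] [SecondCountableTopology M] [MeasurableSpace M]
  [BorelSpace M] {m : Measure M}

/-- One centre curve at scale `ε`. -/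
theorem eps_centre {K N : ℝ} (hM : ABSp m K N) (a b F θ : M →ₘ[m] ℝ)
    (η : ℝ) (hsupp : ∃ (x₀ : M) (R : ℝ), ∀ᵐ x ∂m, R < dist x x₀ → F x = 0)
    (e : ℝ × ℝ) :
    ∃ K₁ ≥ 0, ∀ δ, 0 < δ → δ ≤ 1 → ∀ X : Dat m, X.Ok (sob m) θ η δ → X.a = a → X.b = b →
      X.F = F → ∀ β α : ℝ, 0 ≤ α → ∃ C₀ ≥ 0, ∃ ε₀ > 0, ∀ ε, 0 < ε → ε ≤ ε₀ →
      ∀ ψ : M → ℝ, (∃ L : ℝ, ∀ x y, |ψ x - ψ y| ≤ L * dist x y) → (∃ b, ∀ x, |ψ x| ≤ b) →
        ∫ x, (⨅ y, (ψ y + ((1 / 2 - β * ε ^ 2) * dist x y ^ 2 / ε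
          + (α * ε ^ 2) * dist x y ^ 4 / ε ^ 3))) * F x ∂m
        ≤ (∫ x, ψ x * X.rho (sob m) (ε • e) x ∂m) + X.cp (sob m) e β α ε
          + K₁ * δ * ε ^ 3 + C₀ * ε ^ 4 := by
  have hC := hM.hC
  have hB := hM.hB
  have : SigmaFinite m := sigmaFinite_of_ball hM.hfin
  obtain ⟨K₁, hK₁, hact⟩ := Dat.cen_act hC hB a b F θ η e
  refine ⟨K₁, hK₁, fun δ hδ hδ1 X hX ha hb hF β α hα => ?_⟩
  obtain ⟨C₀, hC₀, ε₁, hε₁, H⟩ := hact δ hδ hδ1 X hX ha hb hF β α hα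
  obtain ⟨ε₂, hε₂, V, hV, Hf⟩ := Dat.cen_flux hC hB hX e
  refine ⟨C₀, hC₀, min ε₁ (min ε₂ (1 / (4 * (|β| + 1)))),
    lt_min hε₁ (lt_min hε₂ (by (clear * -; positivity))), ?_⟩
  intro ε hε hεm ψ hψL hψb
  have k1 : ε ≤ ε₁ := hεm.trans (min_le_left _ _)
  have k2 : ε ≤ ε₂ := hεm.trans ((min_le_right _ _).trans (min_le_left _ _))
  have k3 : ε ≤ 1 / (4 * (|β| + 1)) := hεm.trans ((min_le_right _ _).trans (min_le_right _ _))
  have hA : 0 < 1 / 2 - β * ε ^ 2 := by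
    rw [le_div_iff₀ (by positivity)] at k3
    have h0 := abs_nonneg β
    have h1 : β * ε ^ 2 ≤ |β| * ε ^ 2 := mul_le_mul_of_nonneg_right (le_abs_self β) (sq_nonneg ε)
    have h2 : 0 ≤ |β| * ε := mul_nonneg h0 hε.le
    have h3 : ε ≤ 1 / 4 := by linarith only [h2, k3]
    have h4 : |β| * ε ^ 2 ≤ |β| * ε * (1 / 4) := by
      calc |β| * ε ^ 2 = |β| * ε * ε := by ring
        _ ≤ |β| * ε * (1 / 4) := mul_le_mul_of_nonneg_left h3 h2
    linarith only [h4, h3, h1, k3, hε]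
  obtain ⟨act, hac, hact1, hact2⟩ := H ε hε k1
  have hrho : ∀ t : ℝ, X.rho (sob m) (t • e)
      = F + t • (-X.D (sob m) e) + (t ^ 2 / 2) • X.r (sob m) e e := by
    intro t
    rw [Dat.rho_eq hC hB hX, hF, smul_neg, ← sub_eq_add_neg]
  have hL : ∃ K, LipschitzWith K ψ := by
    obtain ⟨L, hL⟩ := hψL
    refine ⟨L.toNNReal, LipschitzWith.of_dist_le_mul fun x y => ?_⟩
    rw [Real.dist_eq]
    exact (hL x y).trans (mul_le_mul_of_nonneg_right (Real.le_coe_toNNReal L) dist_nonneg)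
  have hs : ∃ (x₀ : M) (R : ℝ), ∀ᵐ x ∂m, R < dist x x₀ →
      F x = 0 ∧ (-X.D (sob m) e : M →ₘ[m] ℝ) x = 0 ∧ X.r (sob m) e e x = 0 := by
    obtain ⟨x₀, R, hR⟩ := hsupp
    refine ⟨x₀, R, ?_⟩
    filter_upwards [hR, Dat.loc_ae hC hB hX e, neg_ae (X.D (sob m) e)] with x h1 h2 h3 hd
    have h4 := h1 hd
    rcases h2 with h2 | h2
    · have := hX.hη
      rw [hF, h4] at h2
      linarith [h2.2]
    · refine ⟨h4, ?_, h2.2.2.2.1⟩
      rw [h3, h2.2.2.1, neg_zero]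
  have main := bb (F := F) (R1 := -X.D (sob m) e) (R2 := X.r (sob m) e e) hM.hfin hA
    (by positivity : 0 ≤ α * ε ^ 2) hε hL hψb (by rw [← hF]; exact hX.hF1)
    (mem_neg (Dat.eps2_D_mem1 hC hB hX e)) (Dat.eps2_r_mem1 hC hB hX e) hs
    (fun t ht => by
      rw [← hrho]
      exact (Hf t ⟨ht.1, ht.2.trans k2⟩).1)
    (fun t g => X.F * (sob m).Γ (X.pt e) g - t • X.Y (sob m) e e g)
    (fun t => X.v2 (sob m) e t)
    (fun t ht => (Hf t ⟨ht.1, ht.2.trans k2⟩).2.1) act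
    (fun t ht g hg hg1 hg2 => by
      have h := (Hf t ⟨ht.1, ht.2.trans k2⟩).2.2.2.2 g hg hg1 hg2
      refine ⟨h.1, ?_⟩
      rw [neg_add_eq_sub]
      exact h.2.1)
    (fun t ht g hg hg1 hg2 => by
      rw [← hrho]
      exact ((Hf t ⟨ht.1, ht.2.trans k2⟩).2.2.2.2 g hg hg1 hg2).2.2)
    (fun t ht => by
      rw [← hrho]
      exact (hact1 t ht).1)
    (fun t ht => by
      rw [← hrho]
      exact (hact1 t ht).2)
    (hac.intervalIntegrable 0 ε)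
  rw [← hrho] at main
  refine main.trans ?_
  unfold Dat.cp
  linarith only [hact2]

/-- the final computation for fixed `ε` and `ξ`, with everything integrated -/
theorem fin_step {J0 J1 J2 F U1 V1 U2 V2 U3 V3 r0 r1 r2 : M → ℝ} {c ξ p1 p2 p3 q0 q1 q2 : ℝ} {A : Set M}
    (hF : Integrable F m) (hF0 : ∀ᵐ x ∂m, 0 ≤ F x)
    (i0 : Integrable (fun x => J0 x * F x) m) (i1 : Integrable (fun x => J1 x * F x) m)
    (i2 : Integrable (fun x => J2 x * F x) m)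
    (u1 : Integrable (fun x => U1 x * r0 x) m) (u2 : Integrable (fun x => U2 x * r0 x) m)
    (u3 : Integrable (fun x => U3 x * r1 x) m) (v1 : Integrable (fun x => V1 x * r1 x) m)
    (v2 : Integrable (fun x => V2 x * r2 x) m) (v3 : Integrable (fun x => V3 x * r2 x) m)
    (hFA : ∀ᵐ x ∂m, x ∉ A → F x = 0)
    (hd : ∀ z ∈ A, -c - ξ ≤ J0 z + J1 z + J2 z)
    (a1 : p1 ≤ (∫ x, V1 x * r1 x ∂m) - ∫ x, U1 x * r0 x ∂m)
    (a2 : p2 ≤ (∫ x, V2 x * r2 x ∂m) - ∫ x, U2 x * r0 x ∂m)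
    (a3 : p3 ≤ (∫ x, V3 x * r2 x ∂m) - ∫ x, U3 x * r1 x ∂m)
    (w0 : ∫ x, J0 x * F x ∂m ≤ (∫ x, (U1 x + U2 x) / 3 * r0 x ∂m) + q0)
    (w1 : ∫ x, J1 x * F x ∂m ≤ (∫ x, (U3 x - V1 x) / 3 * r1 x ∂m) + q1)
    (w2 : ∫ x, J2 x * F x ∂m ≤ (∫ x, -(V2 x + V3 x) / 3 * r2 x ∂m) + q2) :
    3⁻¹ * (p1 + p2 + p3) ≤ q0 + q1 + q2 + (c + ξ) * ∫ x, F x ∂m := by
  have e0 : ∫ x, (U1 x + U2 x) / 3 * r0 x ∂m =
      3⁻¹ * ((∫ x, U1 x * r0 x ∂m) + ∫ x, U2 x * r0 x ∂m) := by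
    rw [← integral_add u1 u2, ← integral_const_mul]
    refine integral_congr_ae (Eventually.of_forall fun x => ?_)
    simp only
    ring
  have e1 : ∫ x, (U3 x - V1 x) / 3 * r1 x ∂m =
      3⁻¹ * ((∫ x, U3 x * r1 x ∂m) - ∫ x, V1 x * r1 x ∂m) := by
    rw [← integral_sub u3 v1, ← integral_const_mul]
    refine integral_congr_ae (Eventually.of_forall fun x => ?_)
    simp only
    ring
  have e2 : ∫ x, -(V2 x + V3 x) / 3 * r2 x ∂m =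
      -3⁻¹ * ((∫ x, V2 x * r2 x ∂m) + ∫ x, V3 x * r2 x ∂m) := by
    rw [← integral_add v2 v3, ← integral_const_mul]
    refine integral_congr_ae (Eventually.of_forall fun x => ?_)
    simp only
    ring
  have hI : ∫ x, (-c - ξ) * F x ∂m ≤ ∫ x, (J0 x * F x + J1 x * F x + J2 x * F x) ∂m := by
    refine integral_mono_ae (hF.const_mul _) ((i0.add i1).add i2) ?_
    filter_upwards [hF0, hFA] with x hx hx2
    by_cases hxA : x ∈ A
    · have := mul_le_mul_of_nonneg_right (hd x hxA) hx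
      linarith only [this]
    · rw [hx2 hxA]
      simp
  have e3 : ∫ x, (J0 x * F x + J1 x * F x + J2 x * F x) ∂m =
      (∫ x, J0 x * F x ∂m) + (∫ x, J1 x * F x ∂m) + ∫ x, J2 x * F x ∂m := by
    have h := integral_add (i0.add i1) i2
    have h' := integral_add i0 i1
    simp only [Pi.add_apply] at h
    rw [h, h']
  rw [integral_const_mul, e3] at hI
  rw [e0] at w0
  rw [e1] at w1
  rw [e2] at w2
  linarith only [hI, w2, w1, w0, a3, a2, a1]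

end

section

variable {M : Type*} [MetricSpace M] [SecondCountableTopology M] [MeasurableSpace M]
  [BorelSpace M] {m : Measure M} [m.IsOpenPosMeasure]

open EpsM in
/-- The inequality between the actions at scale `ε`. -/
theorem eps_main {K N : ℝ} (hM : ABSp m K N) {κ r₀ CL : ℝ} {A : Set M} (hr₀ : 0 < r₀)
    (hCL : 0 ≤ CL) (hL : LSSon A κ r₀ CL) (a b F θ k : M →ₘ[m] ℝ)
    (hk : k ∈ (sob m).TestI) (η : ℝ) (hsupp : ∃ (x₀ : M) (R : ℝ), ∀ᵐ x ∂m, R < dist x x₀ → F x = 0)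
    (hFA : ∀ᵐ x ∂m, x ∉ A → F x = 0)
    (t : Fin 3 → ℝ) (ht : ∀ i, 0 ≤ t i) :
    ∃ K₁ ≥ 0, ∀ δ, 0 < δ → δ ≤ 1 → ∀ X : Dat m, X.Ok (sob m) θ η δ → X.a = a → X.b = b →
      X.F = F → ∃ C₀ ≥ 0, ∃ ε₀ > 0, ∀ ε, 0 < ε → ε ≤ ε₀ →
      3⁻¹ * X.actS (sob m) k ε ≤
        X.cp (sob m) (dir 0) (bet κ t 0) (|κ| / 8) ε
          + X.cp (sob m) (dir 1) (bet κ t 1) (|κ| / 8) ε
          + X.cp (sob m) (dir 2) (bet κ t 2) (|κ| / 8) ε
          + ε ^ 3 * (κ / 24 * HH t + |κ| / 8 * (t 0 ^ 2 + t 1 ^ 2 + t 2 ^ 2)) * I F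
          + K₁ * δ * ε ^ 3 + C₀ * ε ^ 4 := by
  by_cases hab : a ∈ (sob m).TestI ∧ b ∈ (sob m).TestI
  swap
  · exact ⟨0, le_rfl, fun δ hδ hδ1 X hX ha hb hF =>
      absurd ⟨by rw [← ha]; exact hX.ha, by rw [← hb]; exact hX.hb⟩ hab⟩
  obtain ⟨haI, hbI⟩ := hab
  have hC := hM.hC
  have hB := hM.hB
  have hD := hC.toIsDir
  have gaa := hC.Γ_mem hB haI.1 haI.1
  have gab := hC.Γ_mem hB haI.1 hbI.1
  have gbb := hC.Γ_mem hB hbI.1 hbI.1
  have hkA := hC.test_A hk.1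
  obtain ⟨K1, hK1, H1⟩ := eps_pair hM a b F θ (k + (2 : ℝ)⁻¹ • (sob m).Γ a a)
    (hD.A_add hkA (hD.A_smul _ gaa)) η (dir 0) (dir 1 - dir 0)
  obtain ⟨K2, hK2, H2⟩ := eps_pair hM a b F θ ((sob m).Γ a a - k)
    (hD.A_sub gaa hkA) η (dir 0) (dir 2 - dir 0)
  obtain ⟨K3, hK3, H3⟩ := eps_pair hM a b F θ (k + (sob m).Γ a b + (sob m).Γ b b)
    (hD.A_add (hD.A_add hkA gab) gbb) η (dir 1) (dir 2 - dir 1)
  obtain ⟨C1, hC1, Z1⟩ := eps_centre hM a b F θ η hsupp (dir 0)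
  obtain ⟨C2, hC2, Z2⟩ := eps_centre hM a b F θ η hsupp (dir 1)
  obtain ⟨C3, hC3, Z3⟩ := eps_centre hM a b F θ η hsupp (dir 2)
  refine ⟨(K1 + K2 + K3) / 3 + (C1 + C2 + C3), by (clear * - hK1 hK2 hK3 hC1 hC2 hC3; positivity), fun δ hδ hδ1 X hX ha hb hF => ?_⟩
  -- the approximations
  have nP := hX.nP
  have nQ := hX.nQ
  have nR := hX.nR
  rw [ha] at nP nQ
  rw [hb] at nQ nR
  have hPA := (hC.test_A hX.hP.1)
  have hQA := (hC.test_A hX.hQ.1)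
  have hRA := (hC.test_A hX.hR.1)
  have hδ2 : (2 * δ) ^ 2 = 4 * δ ^ 2 := by ring
  have hδ3 : 0 ≤ δ ^ 2 := by positivity
  have n1 : (sob m).nrm2 (k + (2 : ℝ)⁻¹ • X.P - (k + (2 : ℝ)⁻¹ • (sob m).Γ a a)) ≤
      (2 * δ) ^ 2 := by
    have e : k + (2 : ℝ)⁻¹ • X.P - (k + (2 : ℝ)⁻¹ • (sob m).Γ a a) =
        (2 : ℝ)⁻¹ • (X.P - (sob m).Γ a a) := by
      rw [smul_sub]; abel
    have hW := hD.sub_mem hPA.1 gaa.1
    rw [e]
    unfold Calc.nrm2 at nP ⊢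
    rw [hC.smul_left _ _ hW _ (hC.smul_mem _ _ hW), hD.Γ_smul_right _ hW hW, I_smul, I_smul,
      smul_pow, I_smul]
    have h1 := I_sq_nonneg (X.P - (sob m).Γ a a)
    have h2 := hD.E_nonneg hW
    linarith only [hδ3, nP]
  have n2 : (sob m).nrm2 (X.P - k - ((sob m).Γ a a - k)) ≤ (2 * δ) ^ 2 := by
    have e : X.P - k - ((sob m).Γ a a - k) = X.P - (sob m).Γ a a := by abel
    rw [e]
    linarith
  have n3 : (sob m).nrm2 (k + X.Q + X.R - (k + (sob m).Γ a b + (sob m).Γ b b)) ≤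
      (2 * δ) ^ 2 := by
    have e : k + X.Q + X.R - (k + (sob m).Γ a b + (sob m).Γ b b) =
        (X.Q - (sob m).Γ a b) + (X.R - (sob m).Γ b b) := by abel
    rw [e]
    have := hD.nrm2_add_le (hD.sub_mem hQA.1 gab.1) (hD.sub_mem hRA.1 gbb.1)
    linarith
  obtain ⟨L1, hL1, e1, he1, P1⟩ := H1 δ hδ hδ1 X hX ha hb hF _
    (hC.testI_add hB hk (hC.testI_smul hB _ hX.hP)) n1
  obtain ⟨L2, hL2, e2, he2, P2⟩ := H2 δ hδ hδ1 X hX ha hb hF _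
    (by
      have := hC.testI_add hB hX.hP (hC.testI_smul hB (-1) hk)
      rwa [neg_one_smul, ← sub_eq_add_neg] at this) n2
  obtain ⟨L3, hL3, e3, he3, P3⟩ := H3 δ hδ hδ1 X hX ha hb hF _
    (hC.testI_add hB (hC.testI_add hB hk hX.hQ) hX.hR) n3
  obtain ⟨D1, hD1, e4, he4, Q4⟩ := dual_lss hr₀ hCL hL t (max L1 (max L2 L3))
    (hL1.trans (le_max_left _ _))
  have hα : 0 ≤ |κ| / 8 := by (clear * -; positivity)
  obtain ⟨c1, hc1, e5, he5, W1⟩ := Z1 δ hδ hδ1 X hX ha hb hF (bet κ t 0) (|κ| / 8) hα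
  obtain ⟨c2, hc2, e6, he6, W2⟩ := Z2 δ hδ hδ1 X hX ha hb hF (bet κ t 1) (|κ| / 8) hα
  obtain ⟨c3, hc3, e7, he7, W3⟩ := Z3 δ hδ hδ1 X hX ha hb hF (bet κ t 2) (|κ| / 8) hα
  have hF1 : Integrable (fun x => F x) m := by
    rw [← hF]; exact memLp_one_iff_integrable.1 hX.hF1
  have hF0' : (0 : M →ₘ[m] ℝ) ≤ F := by rw [← hF]; exact F_nonneg hX
  have hF0 : ∀ᵐ x ∂m, 0 ≤ F x := by
    have h := AEEqFun.coeFn_le.2 hF0'
    filter_upwards [h, AEEqFun.coeFn_zero (α := M) (μ := m) (β := ℝ)] with x h1 h2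
    rwa [h2] at h1
  have hIF : 0 ≤ I F := I_nonneg hF0'
  set s := |bet κ t 0| + |bet κ t 1| + |bet κ t 2| with hs
  have hs0 : |bet κ t 0| ≤ s := by
    have := abs_nonneg (bet κ t 1); have := abs_nonneg (bet κ t 2); linarith
  have hs1 : |bet κ t 1| ≤ s := by
    have := abs_nonneg (bet κ t 0); have := abs_nonneg (bet κ t 2); linarith
  have hs2 : |bet κ t 2| ≤ s := by
    have := abs_nonneg (bet κ t 0); have := abs_nonneg (bet κ t 1); linarith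
  have hsn : 0 ≤ s := (abs_nonneg _).trans hs0
  refine ⟨c1 + c2 + c3 + D1 * I F, by (clear * - hc1 hc2 hc3 hD1 hIF; positivity),
    min (min (min e1 e2) (min e3 e4)) (min (min e5 e6) (min e7 (min 1 (1 / (2 * (s + 1)))))),
    by (clear * - he1 he2 he3 he4 he5 he6 he7; positivity), fun ε hε hε0 => ?_⟩
  simp only [le_min_iff] at hε0
  obtain ⟨⟨⟨g1, g2⟩, g3, g4⟩, ⟨g5, g6⟩, g7, g8, g9⟩ := hε0
  have key : ∀ ξ > 0, 3⁻¹ * X.actS (sob m) k ε ≤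
        X.cp (sob m) (dir 0) (bet κ t 0) (|κ| / 8) ε
          + X.cp (sob m) (dir 1) (bet κ t 1) (|κ| / 8) ε
          + X.cp (sob m) (dir 2) (bet κ t 2) (|κ| / 8) ε
          + ε ^ 3 * (κ / 24 * HH t + |κ| / 8 * (t 0 ^ 2 + t 1 ^ 2 + t 2 ^ 2)) * I F
          + ((K1 + K2 + K3) / 3 + (C1 + C2 + C3)) * δ * ε ^ 3
          + (c1 + c2 + c3 + D1 * I F) * ε ^ 4 + ξ * (1 + I F) := by
    intro ξ hξ
    obtain ⟨U1, V1, lU1, lV1, bU1, bV1, d1, A1⟩ := P1 ε hε g1 ξ hξ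
    obtain ⟨U2, V2, lU2, lV2, bU2, bV2, d2, A2⟩ := P2 ε hε g2 ξ hξ
    obtain ⟨U3, V3, lU3, lV3, bU3, bV3, d3, A3⟩ := P3 ε hε g3 ξ hξ
    rw [add_sub_cancel] at A1 A2 A3
    have hLm : ∀ {f : M → ℝ} {L' : ℝ}, L' ≤ max L1 (max L2 L3) →
        (∀ x y, |f x - f y| ≤ L' * dist x y) →
        ∀ x y, |f x - f y| ≤ max L1 (max L2 L3) * dist x y := fun hle hf x y =>
      (hf x y).trans (mul_le_mul_of_nonneg_right hle dist_nonneg)
    have m1 : L1 ≤ max L1 (max L2 L3) := le_max_left _ _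
    have m2 : L2 ≤ max L1 (max L2 L3) := (le_max_left _ _).trans (le_max_right _ _)
    have m3 : L3 ≤ max L1 (max L2 L3) := (le_max_right _ _).trans (le_max_right _ _)
    have hd := Q4 ε hε g4 ξ hξ.le U1 V1 U2 V2 U3 V3 (by
      intro f hf
      simp only [Set.mem_insert_iff, Set.mem_singleton_iff] at hf
      rcases hf with rfl | rfl | rfl | rfl | rfl | rfl
      · exact ⟨hLm m1 lU1, bU1⟩
      · exact ⟨hLm m1 lV1, bV1⟩
      · exact ⟨hLm m2 lU2, bU2⟩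
      · exact ⟨hLm m2 lV2, bV2⟩
      · exact ⟨hLm m3 lU3, bU3⟩
      · exact ⟨hLm m3 lV3, bV3⟩) d1 d2 d3
    -- integrability
    have r0 : Integrable (fun x => X.rho (sob m) (ε • dir 0) x) m :=
      memLp_one_iff_integrable.1 (rho_mem1 hC hB hX _)
    have r1 : Integrable (fun x => X.rho (sob m) (ε • dir 1) x) m :=
      memLp_one_iff_integrable.1 (rho_mem1 hC hB hX _)
    have r2 : Integrable (fun x => X.rho (sob m) (ε • dir 2) x) m :=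
      memLp_one_iff_integrable.1 (rho_mem1 hC hB hX _)
    obtain ⟨b1, hb1⟩ := bU1
    obtain ⟨b1', hb1'⟩ := bV1
    obtain ⟨b2, hb2⟩ := bU2
    obtain ⟨b2', hb2'⟩ := bV2
    obtain ⟨b3, hb3⟩ := bU3
    obtain ⟨b3', hb3'⟩ := bV3
    have ψ0 : ∀ y, |(U1 y + U2 y) / 3| ≤ (b1 + b2) / 3 := fun y => by
      rw [abs_div, abs_of_pos (by norm_num : (0 : ℝ) < 3)]
      have := abs_add_le (U1 y) (U2 y)
      have := hb1 y; have := hb2 y
      linarith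
    have ψ1 : ∀ y, |(U3 y - V1 y) / 3| ≤ (b3 + b1') / 3 := fun y => by
      rw [abs_div, abs_of_pos (by norm_num : (0 : ℝ) < 3)]
      have := abs_sub (U3 y) (V1 y)
      have := hb3 y; have := hb1' y
      linarith
    have ψ2 : ∀ y, |-(V2 y + V3 y) / 3| ≤ (b2' + b3') / 3 := fun y => by
      rw [abs_div, abs_neg, abs_of_pos (by norm_num : (0 : ℝ) < 3)]
      have := abs_add_le (V2 y) (V3 y)
      have := hb2' y; have := hb3' y
      linarith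
    have l0 : ∃ L : ℝ, ∀ x y, |(U1 x + U2 x) / 3 - (U1 y + U2 y) / 3| ≤ L * dist x y :=
      ⟨(L1 + L2) / 3, fun x y => by
        have h1 := abs_le.1 (lU1 x y); have h2 := abs_le.1 (lU2 x y)
        rw [abs_le]; constructor <;> linarith⟩
    have l1 : ∃ L : ℝ, ∀ x y, |(U3 x - V1 x) / 3 - (U3 y - V1 y) / 3| ≤ L * dist x y :=
      ⟨(L3 + L1) / 3, fun x y => by
        have h1 := abs_le.1 (lU3 x y); have h2 := abs_le.1 (lV1 x y)
        rw [abs_le]; constructor <;> linarith⟩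
    have l2 : ∃ L : ℝ, ∀ x y, |-(V2 x + V3 x) / 3 - -(V2 y + V3 y) / 3| ≤ L * dist x y :=
      ⟨(L2 + L3) / 3, fun x y => by
        have h1 := abs_le.1 (lV2 x y); have h2 := abs_le.1 (lV3 x y)
        rw [abs_le]; constructor <;> linarith⟩
    have w0 := W1 ε hε g5 (fun y => (U1 y + U2 y) / 3) l0 ⟨_, ψ0⟩
    have w1 := W2 ε hε g6 (fun y => (U3 y - V1 y) / 3) l1 ⟨_, ψ1⟩
    have w2 := W3 ε hε g7 (fun y => -(V2 y + V3 y) / 3) l2 ⟨_, ψ2⟩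
    have i0 := inf_int ψ0 (cst_cont κ t 0 ε) (cst_nonneg hε (bet_sq hε g8 g9 hs0))
      (cst_zero κ t 0 ε) hF1
    have i1 := inf_int ψ1 (cst_cont κ t 1 ε) (cst_nonneg hε (bet_sq hε g8 g9 hs1))
      (cst_zero κ t 1 ε) hF1
    have i2 := inf_int ψ2 (cst_cont κ t 2 ε) (cst_nonneg hε (bet_sq hε g8 g9 hs2))
      (cst_zero κ t 2 ε) hF1
    have hfin := H154.fin_step (m := m)
      (c := ε ^ 3 * (κ / 24 * HH t + |κ| / 8 * (t 0 ^ 2 + t 1 ^ 2 + t 2 ^ 2)) + D1 * ε ^ 5)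
      (ξ := ξ) (A := A) hF1 hF0 i0 i1 i2
      (lip_int lU1 ⟨b1, hb1⟩ r0) (lip_int lU2 ⟨b2, hb2⟩ r0) (lip_int lU3 ⟨b3, hb3⟩ r1)
      (lip_int lV1 ⟨b1', hb1'⟩ r1) (lip_int lV2 ⟨b2', hb2'⟩ r2) (lip_int lV3 ⟨b3', hb3'⟩ r2)
      hFA (fun z hz => by have := hd z hz; linarith only [this]) A1 A2 A3
      (q0 := X.cp (sob m) (dir 0) (bet κ t 0) (|κ| / 8) ε + C1 * δ * ε ^ 3 + c1 * ε ^ 4)
      (q1 := X.cp (sob m) (dir 1) (bet κ t 1) (|κ| / 8) ε + C2 * δ * ε ^ 3 + c2 * ε ^ 4)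
      (q2 := X.cp (sob m) (dir 2) (bet κ t 2) (|κ| / 8) ε + C3 * δ * ε ^ 3 + c3 * ε ^ 4)
      (by rw [← add_assoc, ← add_assoc]; exact w0) (by rw [← add_assoc, ← add_assoc]; exact w1)
      (by rw [← add_assoc, ← add_assoc]; exact w2)
    have hI : ∫ x, F x ∂m = I F := rfl
    rw [hI] at hfin
    have h5 : D1 * ε ^ 5 * I F ≤ D1 * I F * ε ^ 4 := by
      have h6 : 0 ≤ D1 * I F * ε ^ 4 := by (clear * - hD1 hIF hε; positivity)
      have h7 : D1 * ε ^ 5 * I F = D1 * I F * ε ^ 4 * ε := by ring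
      rw [h7]
      exact mul_le_of_le_one_right h6 g8
    unfold Dat.actS
    linarith only [h5, hfin]
  by_contra hlt
  rw [not_le] at hlt
  have hpos : 0 < 1 + I F := by linarith only [hIF]
  set A₁ := 3⁻¹ * X.actS (sob m) k ε
  set B := X.cp (sob m) (dir 0) (bet κ t 0) (|κ| / 8) ε
          + X.cp (sob m) (dir 1) (bet κ t 1) (|κ| / 8) ε
          + X.cp (sob m) (dir 2) (bet κ t 2) (|κ| / 8) ε
          + ε ^ 3 * (κ / 24 * HH t + |κ| / 8 * (t 0 ^ 2 + t 1 ^ 2 + t 2 ^ 2)) * I F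
          + ((K1 + K2 + K3) / 3 + (C1 + C2 + C3)) * δ * ε ^ 3
          + (c1 + c2 + c3 + D1 * I F) * ε ^ 4
  have h := key ((A₁ - B) / 2 / (1 + I F)) (by
    have : 0 < A₁ - B := by linarith
    (clear * - hlt hIF; positivity))
  rw [div_mul_cancel₀ _ hpos.ne'] at h
  linarith only [h, hlt]

/-- limits `ε → 0` and `δ → 0` -/
theorem lim_eps {K N : ℝ} (hM : ABSp m K N) {κ r₀ CL : ℝ} {A : Set M} (hr₀ : 0 < r₀)
    (hCL : 0 ≤ CL) (hL : LSSon A κ r₀ CL) {a b F θ χ k : M →ₘ[m] ℝ}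
    (ha : a ∈ (sob m).TestI) (hb : b ∈ (sob m).TestI) (hF : F ∈ (sob m).TestI)
    (hθ : θ ∈ (sob m).TestI) (hχ : χ ∈ (sob m).TestI) (hk : k ∈ (sob m).TestI)
    (hF1 : MemLp F 1 m) (hθ0 : 0 ≤ θ) (χa : χ * a = a) (χb : χ * b = b) (θχ : θ * χ = χ) {η : ℝ}
    (hη : 0 < η) (Fη : η • θ ≤ F)
    (hsupp : ∃ (x₀ : M) (R : ℝ), ∀ᵐ x ∂m, R < dist x x₀ → F x = 0)
    (hFA : ∀ᵐ x ∂m, x ∉ A → F x = 0)
    (t : Fin 3 → ℝ) (ht : ∀ i, 0 ≤ t i) :
    0 ≤ (sob m).S0 a b F + 6 * (sob m).HW b a k F + 3 * I (F * (sob m).Γ k k)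
      + 3 / 4 * |κ| * (I (F * ((sob m).Γ a a - t 0 • 1) ^ 2) + I (F * ((sob m).Γ b b - t 1 • 1) ^ 2)
          + I (F * ((sob m).Γ (a + b) (a + b) - t 2 • 1) ^ 2))
      + κ / 4 * (HH t * I F - (dHH t 0 * I (F * (sob m).Γ a a) + dHH t 1 * I (F * (sob m).Γ b b)
          + dHH t 2 * I (F * (sob m).Γ (a + b) (a + b)))) := by
  have hC := hM.hC
  have hD := hC.toIsDir
  have hB : (sob m).BEi K := hC.bei hM.hN hM.hBN
  have : SigmaFinite m := sigmaFinite_of_ball hM.hfin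
  have kA := hC.test_A hk.1
  have aW := (hC.test_A ha.1).1
  have bW := (hC.test_A hb.1).1
  have Gaa : (sob m).Γ a a ∈ (sob m).A := hC.Γ_mem hB ha.1 ha.1
  have Gab : (sob m).Γ a b ∈ (sob m).A := hC.Γ_mem hB ha.1 hb.1
  have Gbb : (sob m).Γ b b ∈ (sob m).A := hC.Γ_mem hB hb.1 hb.1
  have hab := hC.testI_add hB ha hb
  have Gcc : (sob m).Γ (a + b) (a + b) ∈ (sob m).A := hC.Γ_mem hB hab.1 hab.1
  obtain ⟨K₁, hK₁, H⟩ := H154.eps_main hM hr₀ hCL hL a b F θ k hk η hsupp hFA t ht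
  obtain ⟨L₁, hL₁, H₁⟩ := Dat.pairX hC hB a b F θ (k + (2 : ℝ)⁻¹ • (sob m).Γ a a)
    (hD.A_add kA (hD.A_smul _ Gaa)) η (dir 0) (dir 1 - dir 0)
  obtain ⟨L₂, hL₂, H₂⟩ := Dat.pairX hC hB a b F θ ((sob m).Γ a a - k)
    (hD.A_sub Gaa kA) η (dir 0) (dir 2 - dir 0)
  obtain ⟨L₃, hL₃, H₃⟩ := Dat.pairX hC hB a b F θ (k + (sob m).Γ a b + (sob m).Γ b b)
    (hD.A_add (hD.A_add kA Gab) Gbb) η (dir 1) (dir 2 - dir 1)
  refine nonneg_of_eps (C₀ := 6 * K₁ + 2 * (L₁ + L₂ + L₃)) (ε₀ := 1) (by (clear * - hK₁ hL₁ hL₂ hL₃; positivity)) one_pos ?_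
  intro δ hδ hδ1
  obtain ⟨X, Xa, Xb, XF, hX⟩ := exists_dat hC hB ha hb hF hθ hχ hF1 hθ0 χa χb θχ hη Fη hδ
  obtain ⟨C₀, hC₀, ε₀, hε₀, E⟩ := H δ hδ hδ1 X hX Xa Xb XF
  have δ2 : 0 ≤ δ ^ 2 := sq_nonneg δ
  have PW : X.P - (sob m).Γ a a ∈ (sob m).W := hD.sub_mem (hC.test_A hX.hP.1).1 Gaa.1
  have QW : X.Q - (sob m).Γ a b ∈ (sob m).W := hD.sub_mem (hC.test_A hX.hQ.1).1 Gab.1
  have RW : X.R - (sob m).Γ b b ∈ (sob m).W := hD.sub_mem (hC.test_A hX.hR.1).1 Gbb.1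
  have nP := hX.nP
  have nQ := hX.nQ
  have nR := hX.nR
  rw [Xa] at nP
  rw [Xa, Xb] at nQ
  rw [Xb] at nR
  obtain ⟨D₁, hD₁, E₁⟩ := H₁ δ hδ hδ1 X hX Xa Xb XF (k + (2 : ℝ)⁻¹ • X.P)
    (hC.testI_add hB hk (hC.testI_smul hB _ hX.hP)) (by
      have e : k + (2 : ℝ)⁻¹ • X.P - (k + (2 : ℝ)⁻¹ • (sob m).Γ a a)
          = (2 : ℝ)⁻¹ • (X.P - (sob m).Γ a a) := by rw [smul_sub]; abel
      rw [e, nrm2_smul' hD _ PW]
      linarith only [nP, δ2])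
  obtain ⟨D₂, hD₂, E₂⟩ := H₂ δ hδ hδ1 X hX Xa Xb XF (X.P - k)
    (by
      have e : X.P - k = X.P + (-1 : ℝ) • k := by rw [neg_smul, one_smul, sub_eq_add_neg]
      rw [e]
      exact hC.testI_add hB hX.hP (hC.testI_smul hB _ hk)) (by
      have e : X.P - k - ((sob m).Γ a a - k) = X.P - (sob m).Γ a a := by abel
      rw [e]
      linarith only [nP, δ2])
  obtain ⟨D₃, hD₃, E₃⟩ := H₃ δ hδ hδ1 X hX Xa Xb XF (k + X.Q + X.R)
    (hC.testI_add hB (hC.testI_add hB hk hX.hQ) hX.hR) (by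
      have e : k + X.Q + X.R - (k + (sob m).Γ a b + (sob m).Γ b b)
          = (X.Q - (sob m).Γ a b) + (X.R - (sob m).Γ b b) := by abel
      rw [e]
      have := hD.nrm2_add_le QW RW
      linarith only [this, nR, nQ])
  have A1 := X.alg1 hC hB hX
  have A2 := X.alg2 hC hB hX
  have A3 := X.alg3 hC hB hX hk.1
  rw [Xa, Xb, XF] at A3
  have g0 : X.Ge (sob m) (dir 0) = (sob m).Γ a a := by
    simp [Dat.Ge, Dat.pt, dir, Xa]
  have g1 : X.Ge (sob m) (dir 1) = (sob m).Γ b b := by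
    simp [Dat.Ge, Dat.pt, dir, Xb]
  have g2 : X.Ge (sob m) (dir 2) = (sob m).Γ (a + b) (a + b) := by
    have e : X.pt (dir 2) = -(a + b) := by
      simp [Dat.pt, dir, Xa, Xb]
      abel
    have cW := hD.add_mem _ aW _ bW
    rw [Dat.Ge, e, hD.Γ_neg_left cW (hD.neg_mem cW), hD.Γ_neg_right cW cW, neg_neg]
  refine nonneg_of_eps (C₀ := 6 * C₀ + 2 * (D₁ + D₂ + D₃)) (ε₀ := min ε₀ 1) (by (clear * - hC₀ hD₁ hD₂ hD₃; positivity))
    (lt_min hε₀ one_pos) ?_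
  intro ε hε hε1
  have e0 := E ε hε (hε1.trans (min_le_left _ _))
  have e1 := E₁ ε hε (hε1.trans (min_le_right _ _))
  have e2 := E₂ ε hε (hε1.trans (min_le_right _ _))
  have e3 := E₃ ε hε (hε1.trans (min_le_right _ _))
  simp only [Dat.actS, Dat.cp, g0, g1, g2, XF] at e0
  rw [I_sq_shift hF1 Gaa.2, I_sq_shift hF1 Gbb.2, I_sq_shift hF1 Gcc.2]
  have hbet : ∀ i, bet κ t i = κ / 24 * dHH t i + |κ| / 4 * t i := fun i => rfl
  rw [hbet, hbet, hbet] at e0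
  have h3 : 0 < ε ^ 3 := by positivity
  refine nonneg_of_mul_nonneg_right ?_ h3
  have a1 := congrArg (fun z => ε / 2 * z) A1
  have a2 := congrArg (fun z => ε ^ 2 / 2 * z) A2
  have a3 := congrArg (fun z => ε ^ 3 * z) A3
  linarith

end

section metric

open L2A

variable {M : Type*} [MetricSpace M] [MeasurableSpace M] [BorelSpace M] {m : Measure M}

/-- the core inequality from the inequality for densities which are positive on the support -/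
theorem core_nice_aux [SecondCountableTopology M] {κ K N : ℝ} (hM : ABSp m K N) {A : Set M} {a b f χ θ : M →ₘ[m] ℝ}
    (ha : a ∈ (sob m).TestI) (hb : b ∈ (sob m).TestI) (hf : f ∈ (sob m).TestI) (hf0 : 0 ≤ f)
    (χf : χ * f = f) (hsupp : ∃ (x₀ : M) (R : ℝ), ∀ᵐ x ∂m, R < dist x x₀ → χ x = 0)
    (hθ : θ ∈ (sob m).TestI)
    (θsupp : ∃ (x₀ : M) (R : ℝ), ∀ᵐ x ∂m, R < dist x x₀ → θ x = 0)
    (θA : ∀ᵐ x ∂m, x ∉ A → θ x = 0) (χA : ∀ᵐ x ∂m, x ∉ A → χ x = 0)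
    (H : ∀ k ∈ (sob m).TestI, ∀ F ∈ (sob m).TestI, MemLp F 1 m → ∀ η : ℝ, 0 < η → η • θ ≤ F →
      (∃ (x₀ : M) (R : ℝ), ∀ᵐ x ∂m, R < dist x x₀ → F x = 0) →
      (∀ᵐ x ∂m, x ∉ A → F x = 0) → ∀ t : Fin 3 → ℝ, (∀ i, 0 ≤ t i) →
      0 ≤ lexp (sob m) κ a b k t F) :
    (sob m).CoreAt κ (2 * |κ|) a b f := by
  have hC := hM.hC
  have hB := hC.bei hM.hN hM.hBN
  have : SigmaFinite m := sigmaFinite_of_ball hM.hfin
  obtain ⟨x₀, R, hR⟩ := hsupp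
  obtain ⟨y₀, S, hS⟩ := θsupp
  have hfR : ∀ᵐ x ∂m, R < dist x x₀ → f x = 0 := by
    rw [eq_iff_ae] at χf
    filter_upwards [hR, χf, mul_ae χ f] with x h1 h2 h3 h4
    rw [← h2, h3, h1 h4, zero_mul]
  have hfA := hC.test_A hf.1
  have hθA := hC.test_A hθ.1
  have hf1 := mem1_of_supp hM.hfin hfA.2 hfR
  have hθ1 := mem1_of_supp hM.hfin hθA.2 hS
  have main : ∀ k ∈ (sob m).TestI, ∀ t : Fin 3 → ℝ, (∀ i, 0 ≤ t i) →
      0 ≤ lexp (sob m) κ a b k t f := by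
    intro k hk t ht
    refine lexp_zero hC hB ha.1 hb.1 (hC.test_A hk.1).1 hfA hf1 hθA hθ1 t fun η hη => ?_
    refine H k hk _ (hC.testI_add hB hf (hC.testI_smul hB η hθ)) (mem_add hf1 (mem_smul _ hθ1))
      η hη ?_ ?_ ?_ t ht
    · rw [le_add_iff_nonneg_left]
      exact hf0
    · refine ⟨x₀, max R (S + dist x₀ y₀), ?_⟩
      filter_upwards [hfR, hS, add_ae f (η • θ), smul_ae θ η] with x h1 h2 h3 h4 h5
      have h6 : R < dist x x₀ := (le_max_left _ _).trans_lt h5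
      have h7 : S < dist x y₀ := by
        have h8 : S + dist x₀ y₀ < dist x x₀ := (le_max_right _ _).trans_lt h5
        have h9 := dist_triangle_right x x₀ y₀
        linarith
      rw [h3, h4, h1 h6, h2 h7]
      simp
    · have hfA' : ∀ᵐ x ∂m, x ∉ A → f x = 0 := by
        rw [eq_iff_ae] at χf
        filter_upwards [χA, χf, mul_ae χ f] with x h1 h2 h3 h4
        rw [← h2, h3, h1 h4, zero_mul]
      filter_upwards [hfA', θA, add_ae f (η • θ), smul_ae θ η] with x h1 h2 h3 h4 h5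
      rw [h3, h4, h1 h5, h2 h5]
      simp
  intro k hk t₁ t₂ t₃ h1 h2 h3
  have ht : ∀ i, 0 ≤ (![t₁, t₂, t₃] : Fin 3 → ℝ) i := by
    intro i
    fin_cases i
    · exact h1
    · exact h2
    · exact h3
  have key := ext_k hC hB ha hb hf.1 (L := (sob m).S0 a b f
      + 2 * |κ| * (I (f * ((sob m).Γ a a - t₁ • 1) ^ 2) + I (f * ((sob m).Γ b b - t₂ • 1) ^ 2)
          + I (f * ((sob m).Γ (a + b) (a + b) - t₃ • 1) ^ 2))
      - κ * I (f * ((sob m).Γ a a * (sob m).Γ b b - (sob m).Γ a b ^ 2))) (fun k' hk' => by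
    have e1 := main k' hk' _ ht
    have e2 := lexp_le hC hB (κ' := κ) ha.1 hb.1 (k := k') hf1 hf0 ![t₁, t₂, t₃]
    simp only [Matrix.cons_val_zero, Matrix.cons_val_one, Matrix.cons_val] at e2
    linarith) hk
  linarith

end metric

end Vale.Agent.P233.H154
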