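import Vale.Agent.P233.H154.Eps

/-!
# Locality of the core inequality, and cut-off functions for small balls
-/

open MeasureTheory Filter Topology
open scoped ENNReal NNReal InnerProductSpace

namespace Vale.Agent.P233.H154

open Vale.Agent.P233

section rel

variable {M : Type*} [MeasurableSpace M] {m : Measure M} {C : Calc m}
variable {φ u v w w' a a' b b' c c' g g' h h' : M →ₘ[m] ℝ}

theorem mul_Γ_zero (hD : IsDir C) (hu : u ∈ C.W) (hg : g ∈ C.W) (h : φ * u = 0) :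
    φ * C.Γ u g = 0 := by
  rw [eq_iff_ae] at h ⊢
  filter_upwards [h, mul_ae φ u, mul_ae φ (C.Γ u g), hD.Γ_zero_ae hu, hD.Γ_cs_ae hu hg,
    zero_ae (M := M) (m := m)] with x a1 a2 a3 a4 a5 a6
  rw [a3, a6]
  rw [a2, a6] at a1
  rcases mul_eq_zero.1 a1 with h1 | h1
  · rw [h1, zero_mul]
  · rw [a4 h1, zero_mul] at a5
    rw [pow_eq_zero_iff two_ne_zero |>.1 (le_antisymm a5 (sq_nonneg _)), mul_zero]

/-- `div (φ∇a)` vanishes where `φ` vanishes -/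
theorem De_mul_zero (hD : IsDir C) (hφ : φ ∈ C.W) (ha : a ∈ C.W) (h : φ * w = 0) :
    C.De φ a * w = 0 := by
  have h1 : w * C.Γ φ a = 0 := mul_Γ_zero hD hφ ha (by rw [mul_comm]; exact h)
  have e : C.De φ a * w = w * C.Γ φ a + C.lap a * (φ * w) := by
    unfold Calc.De; ring
  rw [e, h1, h, mul_zero, add_zero]

/-- the functions `w` and `w'` coincide where `φ ≠ 0` -/
def EqOn (φ w w' : M →ₘ[m] ℝ) : Prop := φ * w = φ * w'

theorem EqOn.rfl' : EqOn φ w w := rfl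

theorem EqOn.sub_eq (h : EqOn φ w w') : φ * (w - w') = 0 := by
  rw [mul_sub, sub_eq_zero]; exact h

theorem EqOn.of_sub (h : φ * (w - w') = 0) : EqOn φ w w' := by
  rw [mul_sub, sub_eq_zero] at h; exact h

theorem EqOn.mul (h1 : EqOn φ w w') (h2 : EqOn φ g g') : EqOn φ (w * g) (w' * g') := by
  unfold EqOn at *
  calc φ * (w * g) = (φ * w) * g := by ring
    _ = w' * (φ * g) := by rw [h1]; ring
    _ = _ := by rw [h2]; ring

theorem EqOn.add (h1 : EqOn φ w w') (h2 : EqOn φ g g') : EqOn φ (w + g) (w' + g') := by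
  unfold EqOn at *
  rw [mul_add, mul_add, h1, h2]

theorem EqOn.sub (h1 : EqOn φ w w') (h2 : EqOn φ g g') : EqOn φ (w - g) (w' - g') := by
  unfold EqOn at *
  rw [mul_sub, mul_sub, h1, h2]

theorem EqOn.smul (t : ℝ) (h1 : EqOn φ w w') : EqOn φ (t • w) (t • w') := by
  unfold EqOn at *
  rw [mul_smul_comm, mul_smul_comm, h1]

theorem EqOn.Γ (hD : IsDir C) (ha : a ∈ C.W) (ha' : a' ∈ C.W) (hg : g ∈ C.W) (hg' : g' ∈ C.W)
    (h1 : EqOn φ a a') (h2 : EqOn φ g g') : EqOn φ (C.Γ a g) (C.Γ a' g') := by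
  have e1 : φ * C.Γ (a - a') g = 0 := mul_Γ_zero hD (hD.sub_mem ha ha') hg h1.sub_eq
  have e2 : φ * C.Γ (g - g') a' = 0 := mul_Γ_zero hD (hD.sub_mem hg hg') ha' h2.sub_eq
  rw [hD.Γ_sub_left ha ha' hg] at e1
  rw [hD.Γ_sub_left hg hg' ha', hD.symm _ hg _ ha', hD.symm _ hg' _ ha'] at e2
  exact (EqOn.of_sub e1).trans (EqOn.of_sub e2)

variable (hC : IsGamma C) {K : ℝ} (hB : C.BEi K)

include hC in
theorem W_sub (ha : a ∈ C.Test) (hb : b ∈ C.Test) : a - b ∈ C.W :=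
  hC.sub_mem (hC.tW ha) (hC.tW hb)

include hC hB in
theorem test_sub' (ha : a ∈ C.Test) (hb : b ∈ C.Test) : a - b ∈ C.Test := by
  have := hC.test_add hB ha (hC.test_smul hB (-1) hb)
  rwa [neg_one_smul, ← sub_eq_add_neg] at this

include hC hB in
theorem lap_sub' (ha : a ∈ C.Test) (hb : b ∈ C.Test) : C.lap (a - b) = C.lap a - C.lap b := by
  have e : a - b = a + (-1 : ℝ) • b := by rw [neg_one_smul, sub_eq_add_neg]
  rw [e, hC.lap_add hB ha (hC.test_smul hB (-1) hb), hC.lap_smul hB (-1) hb, neg_one_smul,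
    sub_eq_add_neg]

include hC hB in
theorem EqOn.lap (hφ : φ ∈ C.Test) (ha : a ∈ C.Test) (ha' : a' ∈ C.Test) (h1 : EqOn φ a a') :
    EqOn φ (C.lap a) (C.lap a') := by
  have hu := test_sub' hC hB ha ha'
  have e0 := h1.sub_eq
  refine EqOn.of_sub ?_
  rw [← lap_sub' hC hB ha ha']
  have e1 := hC.lap_mul hB hφ hu
  have l0 : C.lap (0 : M →ₘ[m] ℝ) = 0 := by
    have := hC.lap_smul hB 0 hφ
    simpa using this
  rw [e0, l0] at e1
  have e2 : φ * C.Γ (a - a') φ = 0 := mul_Γ_zero hC.toIsDir (hC.tW hu) (hC.tW hφ) e0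
  rw [hC.symm _ (hC.tW hu) _ (hC.tW hφ)] at e2
  refine mul_zero_of_sq ?_
  have e3 : φ * (φ * C.lap (a - a')) = φ * (φ * C.lap (a - a') + (a - a') * C.lap φ
      + (2 : ℝ) • C.Γ φ (a - a')) - C.lap φ * (φ * (a - a'))
      - (2 : ℝ) • (φ * C.Γ φ (a - a')) := by algebra
  rw [e3, ← e1, e0, e2]
  simp

include hC hB in
/-- `div (φ∇a)` depends only on `a` where `φ ≠ 0` -/
theorem EqOn.De (hφ : φ ∈ C.Test) (ha : a ∈ C.Test) (ha' : a' ∈ C.Test) (h1 : EqOn φ a a') :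
    C.De φ a = C.De φ a' := by
  have hu := W_sub hC ha ha'
  have hφW := hC.tW hφ
  have e1 : φ * C.Γ (a - a') φ = 0 := mul_Γ_zero hC.toIsDir hu hφW h1.sub_eq
  have e2 : C.Γ φ (a - a') = 0 := by
    rw [eq_iff_ae] at e1 ⊢
    filter_upwards [e1, mul_ae φ (C.Γ (a - a') φ), hC.toIsDir.Γ_zero_ae hφW,
      hC.toIsDir.Γ_cs_ae hφW hu, zero_ae (M := M) (m := m),
      eq_iff_ae.1 (hC.symm _ hu _ hφW)] with x a1 a2 a3 a4 a5 a6
    rw [a2, a5] at a1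
    rw [a5]
    rcases mul_eq_zero.1 a1 with h | h
    · rw [a3 h, zero_mul] at a4
      exact pow_eq_zero_iff two_ne_zero |>.1 (le_antisymm a4 (sq_nonneg _))
    · rw [← a6]; exact h
  have e3 : φ * C.lap a = φ * C.lap a' := EqOn.lap hC hB hφ ha ha' h1
  rw [hC.Γ_sub_right hφW (hC.tW ha) (hC.tW ha'), sub_eq_zero] at e2
  unfold Calc.De
  rw [e2, e3]

include hC in
theorem EqOn.De_mul (hφ : φ ∈ C.Test) (ha : a ∈ C.Test) (h1 : EqOn φ w w') :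
    C.De φ a * w = C.De φ a * w' := by
  have := De_mul_zero hC.toIsDir (hC.tW hφ) (hC.tW ha) h1.sub_eq
  rwa [mul_sub, sub_eq_zero] at this

include hC hB in
theorem EqOn.hess (ha : a ∈ C.Test) (ha' : a' ∈ C.Test) (hb : b ∈ C.Test) (hb' : b' ∈ C.Test)
    (hc : c ∈ C.Test) (hc' : c' ∈ C.Test) (h1 : EqOn φ a a') (h2 : EqOn φ b b')
    (h3 : EqOn φ c c') : EqOn φ (C.hess a b c) (C.hess a' b' c') := by
  have hD := hC.toIsDir
  have W := fun {x : M →ₘ[m] ℝ} (hx : x ∈ C.Test) => hC.tW hx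
  have G := fun {x y : M →ₘ[m] ℝ} (hx : x ∈ C.Test) (hy : y ∈ C.Test) => (hC.Γ_mem hB hx hy).1
  unfold Calc.hess
  refine EqOn.smul _ (EqOn.sub (EqOn.add ?_ ?_) ?_)
  · exact EqOn.Γ hD (W hb) (W hb') (G ha hc) (G ha' hc') h2
      (EqOn.Γ hD (W ha) (W ha') (W hc) (W hc') h1 h3)
  · exact EqOn.Γ hD (W hc) (W hc') (G ha hb) (G ha' hb') h3
      (EqOn.Γ hD (W ha) (W ha') (W hb) (W hb') h1 h2)
  · exact EqOn.Γ hD (W ha) (W ha') (G hb hc) (G hb' hc') h1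
      (EqOn.Γ hD (W hb) (W hb') (W hc) (W hc') h2 h3)

include hC hB in
theorem EqOn.HW (hφ : φ ∈ C.Test) (ha : a ∈ C.Test) (ha' : a' ∈ C.Test) (hb : b ∈ C.Test)
    (hb' : b' ∈ C.Test) (hh : h ∈ C.W) (hh' : h' ∈ C.W) (h1 : EqOn φ a a') (h2 : EqOn φ b b')
    (h3 : EqOn φ h h') : C.HW b a h φ = C.HW b' a' h' φ := by
  have hD := hC.toIsDir
  have W := fun {x : M →ₘ[m] ℝ} (hx : x ∈ C.Test) => hC.tW hx
  have G := fun {x y : M →ₘ[m] ℝ} (hx : x ∈ C.Test) (hy : y ∈ C.Test) => (hC.Γ_mem hB hx hy).1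
  have e1 : C.Γ b h * C.De φ a = C.Γ b' h' * C.De φ a' := by
    rw [mul_comm, mul_comm (C.Γ b' h'), ← EqOn.De hC hB hφ ha ha' h1]
    exact EqOn.De_mul hC hφ ha (EqOn.Γ hD (W hb) (W hb') hh hh' h2 h3)
  have e2 : φ * C.Γ h (C.Γ b a) = φ * C.Γ h' (C.Γ b' a') :=
    EqOn.Γ hD hh hh' (G hb ha) (G hb' ha') h3 (EqOn.Γ hD (W hb) (W hb') (W ha) (W ha') h2 h1)
  have e3 : C.Γ a h * C.De φ b = C.Γ a' h' * C.De φ b' := by
    rw [mul_comm, mul_comm (C.Γ a' h'), ← EqOn.De hC hB hφ hb hb' h2]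
    exact EqOn.De_mul hC hφ hb (EqOn.Γ hD (W ha) (W ha') hh hh' h1 h3)
  unfold Calc.HW
  rw [e1, e2, e3]

include hC hB in
theorem EqOn.S0 (hφ : φ ∈ C.Test) (ha : a ∈ C.Test) (ha' : a' ∈ C.Test) (hb : b ∈ C.Test)
    (hb' : b' ∈ C.Test) (h1 : EqOn φ a a') (h2 : EqOn φ b b') : C.S0 a b φ = C.S0 a' b' φ := by
  have hD := hC.toIsDir
  have W := fun {x : M →ₘ[m] ℝ} (hx : x ∈ C.Test) => hC.tW hx
  have G := fun {x y : M →ₘ[m] ℝ} (hx : x ∈ C.Test) (hy : y ∈ C.Test) => (hC.Γ_mem hB hx hy).1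
  have g : ∀ {x x' y y' : M →ₘ[m] ℝ}, x ∈ C.Test → x' ∈ C.Test → y ∈ C.Test → y' ∈ C.Test →
      EqOn φ x x' → EqOn φ y y' → EqOn φ (C.Γ x y) (C.Γ x' y') := fun hx hx' hy hy' e1 e2 =>
    EqOn.Γ hD (W hx) (W hx') (W hy) (W hy') e1 e2
  have e1 : C.De φ a * C.hess b a b = C.De φ a' * C.hess b' a' b' := by
    rw [← EqOn.De hC hB hφ ha ha' h1]
    exact EqOn.De_mul hC hφ ha (EqOn.hess hC hB hb hb' ha ha' hb hb' h2 h1 h2)
  have e2 : C.De φ b * C.hess b a a = C.De φ b' * C.hess b' a' a' := by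
    rw [← EqOn.De hC hB hφ hb hb' h2]
    exact EqOn.De_mul hC hφ hb (EqOn.hess hC hB hb hb' ha ha' ha ha' h2 h1 h1)
  have e3 : φ * C.Γ (C.Γ a a) (C.Γ b b) = φ * C.Γ (C.Γ a' a') (C.Γ b' b') :=
    EqOn.Γ hD (G ha ha) (G ha' ha') (G hb hb) (G hb' hb') (g ha ha' ha ha' h1 h1)
      (g hb hb' hb hb' h2 h2)
  unfold Calc.S0
  rw [e1, e2, e3, EqOn.HW hC hB hφ ha ha' hb hb' (G ha hb) (G ha' hb') h1 h2
    (g ha ha' hb hb' h1 h2)]

include hC hB in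
/-- the core inequality is local in `a` and `b` -/
theorem EqOn.coreAt {κ K' : ℝ} (hφ : φ ∈ C.Test) (ha : a ∈ C.Test) (ha' : a' ∈ C.Test)
    (hb : b ∈ C.Test) (hb' : b' ∈ C.Test) (h1 : EqOn φ a a') (h2 : EqOn φ b b')
    (h : C.CoreAt κ K' a' b' φ) : C.CoreAt κ K' a b φ := by
  have hD := hC.toIsDir
  have W := fun {x : M →ₘ[m] ℝ} (hx : x ∈ C.Test) => hC.tW hx
  have g : ∀ {x x' y y' : M →ₘ[m] ℝ}, x ∈ C.Test → x' ∈ C.Test → y ∈ C.Test → y' ∈ C.Test →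
      EqOn φ x x' → EqOn φ y y' → EqOn φ (C.Γ x y) (C.Γ x' y') := fun hx hx' hy hy' e1 e2 =>
    EqOn.Γ hD (W hx) (W hx') (W hy) (W hy') e1 e2
  have hab := hC.test_add hB ha hb
  have hab' := hC.test_add hB ha' hb'
  have gaa := g ha ha' ha ha' h1 h1
  have gbb := g hb hb' hb hb' h2 h2
  have gab := g ha ha' hb hb' h1 h2
  have gcc := g hab hab' hab hab' (h1.add h2) (h1.add h2)
  have sq : ∀ {x x' : M →ₘ[m] ℝ}, EqOn φ x x' → EqOn φ (x ^ 2) (x' ^ 2) := fun e => by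
    rw [pow_two, pow_two]; exact e.mul e
  intro k hk t₁ t₂ t₃ p1 p2 p3
  have key := h k hk t₁ t₂ t₃ p1 p2 p3
  have e1 : φ * (C.Γ a a * C.Γ b b - C.Γ a b ^ 2)
      = φ * (C.Γ a' a' * C.Γ b' b' - C.Γ a' b' ^ 2) := (gaa.mul gbb).sub (sq gab)
  have e2 : φ * (C.Γ a a - t₁ • 1) ^ 2 = φ * (C.Γ a' a' - t₁ • 1) ^ 2 :=
    sq (gaa.sub EqOn.rfl')
  have e3 : φ * (C.Γ b b - t₂ • 1) ^ 2 = φ * (C.Γ b' b' - t₂ • 1) ^ 2 :=
    sq (gbb.sub EqOn.rfl')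
  have e4 : φ * (C.Γ (a + b) (a + b) - t₃ • 1) ^ 2
      = φ * (C.Γ (a' + b') (a' + b') - t₃ • 1) ^ 2 := sq (gcc.sub EqOn.rfl')
  rw [e1, e2, e3, e4, EqOn.S0 hC hB hφ ha ha' hb hb' h1 h2,
    EqOn.HW hC hB hφ ha ha' hb hb' (hC.tW hk) (hC.tW hk) h1 h2 EqOn.rfl']
  exact key

end rel

section cutoff

variable {M : Type*} [MetricSpace M] [SecondCountableTopology M] [MeasurableSpace M]
  [BorelSpace M] {m : Measure M}

/-- cut-off functions for small balls -/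
theorem exists_cut_loc {K N : ℝ} (hM : ABSp m K N) (x₀ : M) {R : ℝ} (hR0 : 0 < R) :
    ∃ χ ∈ (sob m).TestI, 0 ≤ χ ∧ χ ≤ 1 ∧ (∀ᵐ x ∂m, dist x x₀ ≤ 2 * R → χ x = 1) ∧
      ∀ᵐ x ∂m, 3 * R ≤ dist x x₀ → χ x = 0 := by
  have hC := hM.hC
  have hB := hM.hB
  have hD := hC.toIsDir
  have : SigmaFinite m := sigmaFinite_of_ball hM.hfin
  have hN := hM.hN
  obtain ⟨h, hh, hh0, hh1, hhb⟩ := exists_step4
  set k : ℝ := |K| with hk
  have hk0 : 0 ≤ k := abs_nonneg K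
  have hB' : (sob m).BE (-k) N := hC.be_mono hN (neg_abs_le K) hM.hBN
  -- the parameter of the resolvent
  obtain ⟨μ, hμ0, hμk, hμN⟩ : ∃ μ : ℝ, 0 < μ ∧ 8 * μ * k ≤ 1 ∧ 4 * √(N * μ) * R⁻¹ ≤ 1 / 4 := by
    refine ⟨min (8 * k + 1)⁻¹ (R ^ 2 / (256 * N)), lt_min (by positivity) (by positivity), ?_, ?_⟩
    · have h1 : min (8 * k + 1)⁻¹ (R ^ 2 / (256 * N)) ≤ (8 * k + 1)⁻¹ := min_le_left _ _
      have h2 : (8 * k + 1)⁻¹ * (8 * k + 1) = 1 := inv_mul_cancel₀ (by positivity)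
      have h3 : 0 < (8 * k + 1)⁻¹ := by positivity
      nlinarith
    · have h1 : N * min (8 * k + 1)⁻¹ (R ^ 2 / (256 * N)) ≤ (R / 16) ^ 2 := by
        calc N * min (8 * k + 1)⁻¹ (R ^ 2 / (256 * N)) ≤ N * (R ^ 2 / (256 * N)) :=
              mul_le_mul_of_nonneg_left (min_le_right _ _) hN.le
          _ = (R / 16) ^ 2 := by field_simp; norm_num
      have h2 : √(N * min (8 * k + 1)⁻¹ (R ^ 2 / (256 * N))) ≤ R / 16 :=
        Real.sqrt_le_iff.2 ⟨by positivity, h1⟩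
      have h3 : 0 < R⁻¹ := inv_pos.2 hR0
      calc 4 * √(N * min (8 * k + 1)⁻¹ (R ^ 2 / (256 * N))) * R⁻¹ ≤ 4 * (R / 16) * R⁻¹ := by
            gcongr
        _ = 1 / 4 := by field_simp; norm_num
  have hμK : 1 / 2 ≤ 1 + 2 * μ * K := by
    have h1 : -k ≤ K := neg_abs_le K
    nlinarith [mul_le_mul_of_nonneg_left h1 hμ0.le]
  obtain ⟨η, η1, η2, η3, η4, η5⟩ := exists_eta hM.hfin x₀ hR0
  have ηA : η ∈ (sob m).A := ⟨η1, mem_top_iff.2 ⟨1, η2⟩⟩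
  have ηT : MemLp ((sob m).Γ η η) ∞ m := mem_top_iff.2 ⟨_, η5⟩
  have hpos : 0 < 1 + 2 * μ * K := by linarith
  set u := (sob m).J μ η with hu
  have uT : u ∈ (sob m).TestI := hC.testI_J hB hμ0 hpos ηA ηT
  have uη : ∀ᵐ x ∂m, |u x - η x| ≤ 1 / 4 := by
    filter_upwards [hC.J_sub_le hk0 hN hB' ηA (inv_nonneg.2 hR0.le) (by
      filter_upwards [η5] with x hx; exact (le_abs_self _).trans hx) hμ0 hμk] with x hx
    refine (hx.trans (le_of_eq ?_)).trans hμN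
    ring
  obtain ⟨χ, χ1, χ2, -, -⟩ := hC.testI_comp hB uT h hh (hh0 0 (by norm_num))
  refine ⟨χ, χ1, ?_, ?_, ?_, ?_⟩
  · rw [nonneg_iff_ae]
    filter_upwards [χ2] with x hx
    rw [hx]; exact (hhb _).1
  · rw [le_iff_ae]
    filter_upwards [χ2, one_ae (M := M) (m := m)] with x hx h1
    rw [hx, h1]; exact (hhb _).2
  · filter_upwards [χ2, uη, η3] with x b1 b2 b3 hx
    rw [b1]
    refine hh1 _ ?_
    have h3 := b3 hx
    have h4 := (abs_le.1 b2).1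
    linarith only [h4, h3]
  · filter_upwards [χ2, uη, η4] with x b1 b2 b3 hx
    rw [b1]
    refine hh0 _ ?_
    have h3 := b3 hx
    have h4 := (abs_le.1 b2).2
    linarith only [h4, h3]

end cutoff

end Vale.Agent.P233.H154
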