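import Vale.Agent.P233.H154.Ball
import Vale.Agent.P233.H154.Defs
import Vale.Agent.P233.H236.Main

/-!
# Local and variable lower curvature bounds
-/

open MeasureTheory Filter Topology
open scoped ENNReal NNReal InnerProductSpace

universe u

set_option linter.unusedSectionVars false

namespace Vale.Agent.P233.H154

open Vale.Agent.P233

section ball

variable {M : Type u} [MetricSpace M] [SecondCountableTopology M] [MeasurableSpace M]
  [BorelSpace M] {m : Measure M} [m.IsOpenPosMeasure]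

theorem locAlex_of {κ : ℝ} {z : M} (hgeo : T.IsGeodesic M) (h : T.CurvNear M κ z) :
    ∃ τ > 0, LocAlex M κ z τ := by
  obtain ⟨r, hr, h⟩ := h
  exact ⟨r, hr, hgeo, fun p x y w h1 h2 h3 h4 _ => h p x y w h1 h2 h3 h4⟩

variable {E : Type*} [NormedAddCommGroup E] [InnerProductSpace ℝ E]
  {Gr : (M →ₘ[m] ℝ) → M → E} {U : (M →ₘ[m] ℝ) → (M →ₘ[m] ℝ) → M → E}
  {H : Type*} [NormedAddCommGroup H] [InnerProductSpace ℝ H] [CompleteSpace H]

/-- the curvature inequality for densities supported near `z` -/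
def NearI (m : Measure M) (ι : List ((M →ₘ[m] ℝ) × (M →ₘ[m] ℝ)) → H)
    (X Y : List ((M →ₘ[m] ℝ) × (M →ₘ[m] ℝ))) (κ : ℝ) (z : M) : Prop :=
  ∃ ρ > 0, ∀ f ∈ TL (sob m).Test (sob m) {x | dist x z ≤ ρ}, 0 ≤ f →
    κ * I (f * ((sob m).ip X X * (sob m).ip Y Y - (sob m).ip X Y ^ 2))
      ≤ (sob m).curv ι X Y Y X f

/-- the curvature functional near a point with curvature `≥ κ` -/
theorem ball_curv {K N : ℝ} (hM : ABSp m K N) (hG : IsGrad (sob m) Gr) (hU : IsHU (sob m) Gr U)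
    {ι : List ((M →ₘ[m] ℝ) × (M →ₘ[m] ℝ)) → H} (hι : (sob m).IsL2TM ι)
    {κ : ℝ} {z : M} (h : T.CurvNear M κ z) :
    ∃ ρ > 0, ∀ X Y : List ((M →ₘ[m] ℝ) × (M →ₘ[m] ℝ)), (sob m).IsTestV X → (sob m).IsTestV Y →
      ∀ f ∈ TL (sob m).Test (sob m) {x | dist x z ≤ ρ}, 0 ≤ f →
      κ * I (f * ((sob m).ip X X * (sob m).ip Y Y - (sob m).ip X Y ^ 2))
        ≤ (sob m).curv ι X Y Y X f := by
  have hC := hM.hC
  have hB := hM.hB
  have : SigmaFinite m := sigmaFinite_of_ball hM.hfin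
  obtain ⟨τ, hτ, hA⟩ := locAlex_of hM.geo h
  obtain ⟨r₀, hr₀, CL, hCL, hL⟩ := hA.lss hτ
  have hL' : LSSon {x | dist x z ≤ τ / 2} κ r₀ CL := fun z' hz' x₁ x₂ x₃ r a1 a2 a3 a4 =>
    hL z' x₁ x₂ x₃ r (by rw [dist_comm]; exact hz') a4 a1 a2 a3
  have hpos := pos_ball hM hG hU hr₀ hCL (show 0 < τ / 2 by positivity) hL'
  exact ⟨2 * (τ / 2) / 9, by positivity, fun X Y hX hY f hf hf0 =>
    sec_loc hC hB hG hU hι hX hY hpos hf hf0⟩

omit [m.IsOpenPosMeasure] in
theorem wedge_nonneg {C : Calc m} (hC : IsGamma C) (hG : IsGrad C Gr)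
    {X Y : List ((M →ₘ[m] ℝ) × (M →ₘ[m] ℝ))} (hX : C.IsTestV X) (hY : C.IsTestV Y) :
    ∀ᵐ x ∂m, 0 ≤ (C.ip X X * C.ip Y Y - C.ip X Y ^ 2 : M →ₘ[m] ℝ) x := by
  have hX' : ∀ p ∈ X, p.2 ∈ C.W := fun p hp => (hC.test_A (hX p hp).2).1
  have hY' : ∀ p ∈ Y, p.2 ∈ C.W := fun p hp => (hC.test_A (hY p hp).2).1
  filter_upwards [hG.inner_fvec hX' hX', hG.inner_fvec hY' hY', hG.inner_fvec hX' hY',
    sub_ae (C.ip X X * C.ip Y Y) (C.ip X Y ^ 2), mul_ae (C.ip X X) (C.ip Y Y),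
    sq_ae (C.ip X Y)] with x a1 a2 a3 a4 a5 a6
  rw [a4, a5, a6, ← a1, ← a2, ← a3]
  have := real_inner_mul_inner_self_le (fvec Gr X x) (fvec Gr Y x)
  linarith [sq (⟪fvec Gr X x, fvec Gr Y x⟫_ℝ)]

end ball

section part

variable {M : Type u} [MetricSpace M] [SecondCountableTopology M] [MeasurableSpace M]
  [BorelSpace M] {m : Measure M} [m.IsOpenPosMeasure]
variable {E : Type*} [NormedAddCommGroup E] [InnerProductSpace ℝ E]
  {Gr : (M →ₘ[m] ℝ) → M → E} {U : (M →ₘ[m] ℝ) → (M →ₘ[m] ℝ) → M → E}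
  {H : Type*} [NormedAddCommGroup H] [InnerProductSpace ℝ H] [CompleteSpace H]

theorem int_mul {c : M → ℝ} {B : ℝ} (hc : Continuous c) (hB : ∀ x, |c x| ≤ B) {g : M →ₘ[m] ℝ}
    (hg : MemLp g 1 m) : Integrable (fun x => c x * g x) m :=
  (int_of_mem hg).bdd_mul hc.aestronglyMeasurable
    (Eventually.of_forall fun x => by rw [Real.norm_eq_abs]; exact hB x)

theorem int_mul_add {c : M → ℝ} {B : ℝ} (hc : Continuous c) (hB : ∀ x, |c x| ≤ B)
    {g h : M →ₘ[m] ℝ} (hg : MemLp g 1 m) (hh : MemLp h 1 m) :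
    ∫ x, c x * (g + h : M →ₘ[m] ℝ) x ∂m = ∫ x, c x * g x ∂m + ∫ x, c x * h x ∂m := by
  rw [← integral_add (int_mul hc hB hg) (int_mul hc hB hh)]
  refine integral_congr_ae ?_
  filter_upwards [add_ae g h] with x hx
  rw [hx]; ring

/-- the curvature inequality for densities with compact support, with a variable bound -/
theorem part {K N : ℝ} (hM : ABSp m K N) (hG : IsGrad (sob m) Gr) (hU : IsHU (sob m) Gr U)
    {ι : List ((M →ₘ[m] ℝ) × (M →ₘ[m] ℝ)) → H} (hι : (sob m).IsL2TM ι)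
    {X Y : List ((M →ₘ[m] ℝ) × (M →ₘ[m] ℝ))} (hX : (sob m).IsTestV X) (hY : (sob m).IsTestV Y)
    {k : M → ℝ} (hk : Continuous k) {B : ℝ} (hkB : ∀ x, |k x| ≤ B) {A : Set M}
    (hA : IsCompact A) (hcurv : ∀ z ∈ A, ∀ κ < k z, NearI m ι X Y κ z) {f : M →ₘ[m] ℝ} (hf : f ∈ (sob m).Test)
    (hf0 : 0 ≤ f) (hfA : ∀ᵐ x ∂m, x ∉ A → f x = 0) :
    ∫ x, k x * (f * ((sob m).ip X X * (sob m).ip Y Y - (sob m).ip X Y ^ 2) : M →ₘ[m] ℝ) x ∂m
      ≤ (sob m).curv ι X Y Y X f := by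
  have hC := hM.hC
  have hB := hM.hB
  have : SigmaFinite m := sigmaFinite_of_ball hM.hfin
  have hWm := H236.wedge_mem hC hB hX hY
  have hW0 := wedge_nonneg hC hG hX hY
  obtain ⟨W, hW⟩ : ∃ W : M →ₘ[m] ℝ, W = (sob m).ip X X * (sob m).ip Y Y - (sob m).ip X Y ^ 2 :=
    ⟨_, rfl⟩
  rw [← hW] at hWm hW0 ⊢
  have hfW : ∀ {g : M →ₘ[m] ℝ}, g ∈ (sob m).Test → MemLp (g * W : M →ₘ[m] ℝ) 1 m := fun hg =>
    mem_mul_top (hC.test_A hg).2 hWm
  have hadd := fun {f g : M →ₘ[m] ℝ} (hf : f ∈ (sob m).Test) (hg : g ∈ (sob m).Test) =>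
    curv_add hC hB hG hU hι hX hY hf hg
  have h00 : (sob m).curv ι X Y Y X 0 = 0 := by
    have := hadd (hC.test_zero hB) (hC.test_zero hB)
    rw [add_zero] at this
    linarith
  -- the inequality with an error
  have main : ∀ ε : ℝ, 0 < ε → ∫ x, (k x - 2 * ε) * (f * W : M →ₘ[m] ℝ) x ∂m
      ≤ (sob m).curv ι X Y Y X f := by
    intro ε hε
    have hc : Continuous fun x => k x - 2 * ε := hk.sub continuous_const
    have hcB : ∀ x, |k x - 2 * ε| ≤ B + 2 * ε := by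
      intro x
      have h1 := abs_sub (k x) (2 * ε)
      rw [abs_of_pos (show 0 < 2 * ε by positivity)] at h1
      linarith [hkB x]
    have key : ∃ χ ∈ (sob m).TestI, 0 ≤ χ ∧ χ ≤ 1 ∧ (∀ᵐ x ∂m, x ∈ A → χ x = 1) ∧
        ∀ g ∈ (sob m).Test, 0 ≤ g → ∫ x, (k x - 2 * ε) * (χ * g * W : M →ₘ[m] ℝ) x ∂m
          ≤ (sob m).curv ι X Y Y X (χ * g) := by
      refine hA.induction_on (p := fun s => ∃ χ ∈ (sob m).TestI, 0 ≤ χ ∧ χ ≤ 1 ∧
        (∀ᵐ x ∂m, x ∈ s → χ x = 1) ∧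
        ∀ g ∈ (sob m).Test, 0 ≤ g → ∫ x, (k x - 2 * ε) * (χ * g * W : M →ₘ[m] ℝ) x ∂m
          ≤ (sob m).curv ι X Y Y X (χ * g)) ?_ ?_ ?_ ?_
      · refine ⟨0, hC.testI_zero hB, le_rfl, zero_le_one, by simp, fun g hg hg0 => ?_⟩
        rw [zero_mul, zero_mul, h00]
        refine le_of_eq ?_
        rw [← integral_zero M ℝ (μ := m)]
        refine integral_congr_ae ?_
        filter_upwards [zero_ae (M := M) (m := m)] with x hx
        rw [hx, mul_zero]
      · rintro s t hst ⟨χ, h1, h2, h3, h4, h5⟩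
        refine ⟨χ, h1, h2, h3, ?_, h5⟩
        filter_upwards [h4] with x hx hs
        exact hx (hst hs)
      · rintro s t ⟨χ, h1, h2, h3, h4, h5⟩ ⟨θ, g1, g2, g3, g4, g5⟩
        have hsub : (0 : M →ₘ[m] ℝ) ≤ 1 - χ := sub_nonneg.2 h3
        refine ⟨χ + θ - χ * θ, testI_union hC hB h1 g1, ?_, ?_, ?_, fun g hg hg0 => ?_⟩
        · have e : χ + θ - χ * θ = χ + (1 - χ) * θ := by ring
          rw [e]
          exact add_nonneg h2 (mul_nonneg hsub g2)
        · have e : (1 : M →ₘ[m] ℝ) - (χ + θ - χ * θ) = (1 - χ) * (1 - θ) := by ring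
          rw [← sub_nonneg, e]
          exact mul_nonneg hsub (sub_nonneg.2 g3)
        · filter_upwards [h4, g4, sub_ae (χ + θ) (χ * θ), add_ae χ θ, mul_ae χ θ]
            with x a1 a2 a3 a4 a5 hx
          rw [a3, a4, a5]
          rcases hx with hx | hx
          · rw [a1 hx]; ring
          · rw [a2 hx]; ring
        · have t1 : χ * g ∈ (sob m).Test := hC.test_mul hB h1.1 hg
          have t2 : g - χ * g ∈ (sob m).Test := test_sub' hC hB hg t1
          have t3 : θ * (g - χ * g) ∈ (sob m).Test := hC.test_mul hB g1.1 t2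
          have p2 : 0 ≤ g - χ * g := by
            have e : g - χ * g = (1 - χ) * g := by ring
            rw [e]; exact mul_nonneg hsub hg0
          have e : (χ + θ - χ * θ) * g = χ * g + θ * (g - χ * g) := by ring
          rw [e, hadd t1 t3, add_mul, int_mul_add hc hcB (hfW t1) (hfW t3)]
          exact add_le_add (h5 g hg hg0) (g5 _ t2 p2)
      · intro z hz
        obtain ⟨ρ₁, hρ₁, hb⟩ := hcurv z hz (k z - ε) (by linarith)
        obtain ⟨δ, hδ, hkδ⟩ := Metric.continuous_iff.1 hk z ε hε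
        obtain ⟨ρ, hρ0, hρ1, hρ2⟩ : ∃ ρ > 0, ρ ≤ ρ₁ ∧ ρ < δ :=
          ⟨min ρ₁ (δ / 2), by positivity, min_le_left _ _, (min_le_right _ _).trans_lt (by linarith)⟩
        obtain ⟨θ, g1, g2, g3, g4, g5⟩ := exists_cut_loc hM z (show 0 < ρ / 3 by positivity)
        obtain ⟨χ, h1, h2, h3, h4, h5⟩ := exists_cut_loc hM z (show 0 < 2 * ρ / 9 by positivity)
        refine ⟨Metric.ball z (4 * ρ / 9), mem_nhdsWithin_of_mem_nhds
          (Metric.ball_mem_nhds z (by positivity)), χ, h1, h2, h3, ?_, fun g hg hg0 => ?_⟩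
        · filter_upwards [h4] with x hx hxb
          rw [Metric.mem_ball] at hxb
          exact hx (by linarith)
        · have hχg : χ * g ∈ (sob m).Test := hC.test_mul hB h1.1 hg
          have hTL : χ * g ∈ TL (sob m).Test (sob m) {x | dist x z ≤ ρ₁} := by
            refine ⟨hχg, θ, g1, ?_, ?_⟩
            · have e : θ * χ = χ := by
                rw [eq_iff_ae]
                filter_upwards [g4, h5, mul_ae θ χ] with x a1 a2 a3
                rw [a3]
                rcases le_or_gt (dist x z) (2 * (ρ / 3)) with hx | hx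
                · rw [a1 hx, one_mul]
                · rw [a2 (by linarith), mul_zero]
              rw [← mul_assoc, e]
            · filter_upwards [g5] with x hx h
              have h' : ¬ dist x z ≤ ρ₁ := h
              exact hx (by linarith [not_le.1 h'])
          refine le_trans ?_ (hb _ hTL (mul_nonneg h2 hg0))
          rw [← hW, ← I_smul]
          have h6 : MemLp ((k z - ε) • (χ * g * W) : M →ₘ[m] ℝ) 1 m := mem_smul _ (hfW hχg)
          refine integral_mono_ae (int_mul hc hcB (hfW hχg)) (int_of_mem h6) ?_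
          filter_upwards [smul_ae (χ * g * W) (k z - ε), mul_ae (χ * g) W, mul_ae χ g, hW0,
            nonneg_iff_ae.1 h2, nonneg_iff_ae.1 hg0, h5] with x a1 a2 a3 a4 a5 a6 a7
          rw [a1, a2, a3]
          rcases lt_or_ge (dist x z) δ with hx | hx
          · have h7 := hkδ x hx
            rw [Real.dist_eq] at h7
            have h8 := (abs_lt.1 h7).2
            refine mul_le_mul_of_nonneg_right (by linarith) ?_
            positivity
          · rw [a7 (by linarith)]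
            simp
    obtain ⟨χ, h1, h2, h3, h4, h5⟩ := key
    have e : χ * f = f := by
      rw [eq_iff_ae]
      filter_upwards [h4, hfA, mul_ae χ f] with x a1 a2 a3
      rw [a3]
      by_cases hx : x ∈ A
      · rw [a1 hx, one_mul]
      · rw [a2 hx, mul_zero]
    have := h5 f hf hf0
    rwa [e] at this
  -- the error tends to zero
  refine le_of_forall_pos_le_add fun ε hε => ?_
  have hI0 : 0 ≤ I (f * W) := by
    refine I_nonneg (nonneg_iff_ae.2 ?_)
    filter_upwards [mul_ae f W, hW0, nonneg_iff_ae.1 hf0] with x a1 a2 a3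
    rw [a1]; positivity
  have h1 := main (ε / (2 * (I (f * W) + 1))) (by positivity)
  have e : ∫ x, (k x - 2 * (ε / (2 * (I (f * W) + 1)))) * (f * W : M →ₘ[m] ℝ) x ∂m
      = ∫ x, k x * (f * W : M →ₘ[m] ℝ) x ∂m - 2 * (ε / (2 * (I (f * W) + 1))) * I (f * W) := by
    unfold I
    rw [← integral_const_mul, ← integral_sub (int_mul hk hkB (hfW hf))
      ((int_of_mem (hfW hf)).const_mul _)]
    refine integral_congr_ae (Eventually.of_forall fun x => ?_)
    simp only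
    ring
  rw [e] at h1
  have h2 : 2 * (ε / (2 * (I (f * W) + 1))) * I (f * W) ≤ ε := by
    have h3 : 2 * (ε / (2 * (I (f * W) + 1))) * I (f * W) = ε * (I (f * W) / (I (f * W) + 1)) := by
      field_simp
    rw [h3]
    have h4 : I (f * W) / (I (f * W) + 1) ≤ 1 := by
      rw [div_le_one (by linarith)]; linarith
    calc ε * (I (f * W) / (I (f * W) + 1)) ≤ ε * 1 := mul_le_mul_of_nonneg_left h4 hε.le
      _ = ε := mul_one _
  linarith

end part

section glob

variable {M : Type u} [MetricSpace M] [SecondCountableTopology M] [MeasurableSpace M]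
  [BorelSpace M] {m : Measure M} [m.IsOpenPosMeasure]
variable {E : Type*} [NormedAddCommGroup E] [InnerProductSpace ℝ E]
  {Gr : (M →ₘ[m] ℝ) → M → E} {U : (M →ₘ[m] ℝ) → (M →ₘ[m] ℝ) → M → E}
  {H : Type*} [NormedAddCommGroup H] [InnerProductSpace ℝ H] [CompleteSpace H]

/-- localisation of the curvature functional -/
theorem curv_cut {C : Calc m} [SigmaFinite m] (hC : IsGamma C) {κ : ℝ} (hB : C.BEi κ)
    (hG : IsGrad C Gr) (hU : IsHU C Gr U) {ι : List ((M →ₘ[m] ℝ) × (M →ₘ[m] ℝ)) → H}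
    (hι : C.IsL2TM ι) {X Y : List ((M →ₘ[m] ℝ) × (M →ₘ[m] ℝ))} (hX : C.IsTestV X)
    (hY : C.IsTestV Y) {χ : ℕ → M →ₘ[m] ℝ} (hχ : H236.IsCut C χ) {f : M →ₘ[m] ℝ}
    (hf : f ∈ C.Test) :
    Tendsto (fun n => C.curv ι X Y Y X (χ n * f)) atTop (𝓝 (C.curv ι X Y Y X f)) := by
  have hUU := hU.isUU hC hB hG
  have hX' : ∀ i : Fin X.length, (X[i.1]).1 ∈ C.Test ∧ (X[i.1]).2 ∈ C.Test :=
    fun i => hX _ (List.getElem_mem _)
  have hY' : ∀ i : Fin Y.length, (Y[i.1]).1 ∈ C.Test ∧ (Y[i.1]).2 ∈ C.Test :=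
    fun i => hY _ (List.getElem_mem _)
  have e1 := curv_sum (κ' := 0) hC hB hG hU hι hX hY hf
  have e2 := fun n => curv_sum (κ' := 0) hC hB hG hU hι hX hY (hC.test_mul hB (hχ.mem n) hf)
  simp only [zero_mul, sub_zero] at e1 e2
  rw [e1]
  simp only [e2]
  refine tendsto_finsetSum _ fun j _ => tendsto_finsetSum _ fun l _ =>
    tendsto_finsetSum _ fun i _ => tendsto_finsetSum _ fun k _ => ?_
  have t : f * ((Y[j.1]).1 * (Y[l.1]).1) * ((X[i.1]).1 * (X[k.1]).1) ∈ C.Test :=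
    hC.test_mul hB (hC.test_mul hB hf (hC.test_mul hB (hY' j).1 (hY' l).1))
      (hC.test_mul hB (hX' i).1 (hX' k).1)
  have := H236.cut_rk (κ' := 0) hχ hC hB hUU (hX' i).2 (hY' j).2 (hY' l).2 (hX' k).2 t
  refine this.congr fun n => ?_
  congr 2
  ring

/-- the curvature inequality for all densities in a proper space, with a variable bound -/
theorem glob [ProperSpace M] {K N : ℝ} (hM : ABSp m K N) (hG : IsGrad (sob m) Gr)
    (hU : IsHU (sob m) Gr U)
    {ι : List ((M →ₘ[m] ℝ) × (M →ₘ[m] ℝ)) → H} (hι : (sob m).IsL2TM ι)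
    {X Y : List ((M →ₘ[m] ℝ) × (M →ₘ[m] ℝ))} (hX : (sob m).IsTestV X) (hY : (sob m).IsTestV Y)
    {k : M → ℝ} (hk : Continuous k) {B : ℝ} (hkB : ∀ x, |k x| ≤ B)
    (hcurv : ∀ z, ∀ κ < k z, NearI m ι X Y κ z) {f : M →ₘ[m] ℝ} (hf : f ∈ (sob m).Test)
    (hf0 : 0 ≤ f) :
    ∫ x, k x * (f * ((sob m).ip X X * (sob m).ip Y Y - (sob m).ip X Y ^ 2) : M →ₘ[m] ℝ) x ∂m
      ≤ (sob m).curv ι X Y Y X f := by
  have hC := hM.hC
  have hB := hM.hB
  have : SigmaFinite m := sigmaFinite_of_ball hM.hfin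
  rcases isEmpty_or_nonempty M with hE | ⟨⟨x₀⟩⟩
  · have hz : f = 0 := by
      rw [eq_iff_ae]
      exact Eventually.of_forall fun x => hE.elim x
    have h0 := curv_add hC hB hG hU hι hX hY (hC.test_zero hB) (hC.test_zero hB)
    rw [add_zero] at h0
    rw [hz, integral_of_isEmpty]
    linarith
  have hWm := H236.wedge_mem hC hB hX hY
  obtain ⟨W, hW⟩ : ∃ W : M →ₘ[m] ℝ, W = (sob m).ip X X * (sob m).ip Y Y - (sob m).ip X Y ^ 2 :=
    ⟨_, rfl⟩
  obtain ⟨χ, θ, Λ, cT, tT, c0, cb, tc, tsupp, clim, clap, clap0, cΓ⟩ :=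
    cut_seq hM.hfin hC hM.hN hM.hBN x₀
  have hχ : H236.IsCut (sob m) χ := by
    refine ⟨fun n => (cT n).1, cb, clim, fun n => Λ * ((n : ℝ) + 1)⁻¹, ?_, fun n => ?_⟩
    · have h1 := (tendsto_one_div_add_atTop_nhds_zero_nat (𝕜 := ℝ)).const_mul Λ
      simpa using h1
    · filter_upwards [cΓ n] with x hx
      exact (le_abs_self _).trans hx
  have l1 := curv_cut hC hB hG hU hι hX hY hχ hf
  rw [← hW] at hWm ⊢
  have hfW : MemLp (f * W : M →ₘ[m] ℝ) 1 m := mem_mul_top (hC.test_A hf).2 hWm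
  have hi := int_mul hk hkB hfW
  obtain ⟨g, hg⟩ : ∃ g : M →ₘ[m] ℝ, ∀ᵐ x ∂m, g x = k x * (f * W : M →ₘ[m] ℝ) x :=
    ⟨AEEqFun.mk _ hi.1, AEEqFun.coeFn_mk _ _⟩
  have hgm : MemLp g 1 m := memLp_one_iff_integrable.2 (hi.congr (by
    filter_upwards [hg] with x hx
    exact hx.symm))
  have l2 := H236.cut_mul hχ hgm
  have e1 : I g = ∫ x, k x * (f * W : M →ₘ[m] ℝ) x ∂m := integral_congr_ae hg
  rw [e1] at l2
  refine le_of_tendsto_of_tendsto' l2 l1 fun n => ?_
  obtain ⟨y₀, R, hR⟩ := tsupp n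
  have key := part hM hG hU hι hX hY hk hkB (A := Metric.closedBall y₀ R)
    (isCompact_closedBall y₀ R) (fun z _ => hcurv z)
    (hC.test_mul hB (cT n).1 hf) (mul_nonneg (c0 n) hf0) (by
      filter_upwards [hR, mul_ae (χ n) f, eq_iff_ae.1 (tc n), mul_ae (θ n) (χ n)]
        with x a1 a2 a3 a4 hx
      rw [Metric.mem_closedBall, not_le] at hx
      rw [a2, ← a3, a4, a1 hx, zero_mul, zero_mul])
  refine le_trans (le_of_eq ?_) key
  rw [← hW]
  unfold I
  refine integral_congr_ae ?_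
  filter_upwards [mul_ae (χ n) g, hg, mul_ae (χ n * f) W, mul_ae (χ n) f, mul_ae f W]
    with x a1 a2 a3 a4 a5
  rw [a1, a2, a3, a4, a5]
  ring

end glob

section final

variable {M : Type u} [MetricSpace M] [CompleteSpace M] [SecondCountableTopology M]
  [MeasurableSpace M] [BorelSpace M] {m : Measure M} [m.IsOpenPosMeasure]

theorem abSp_of {K N : ℝ} (hN : 0 < N) (h : S.IsRCD m K N) (hgeo : T.IsGeodesic M) :
    ABSp m (min K 0) N := by
  have hR := isRCD_of_S h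
  have hfin := ball_lt_top_of_growth hR.growth
  have hC : IsGamma (sob m) := isGamma_sob hfin hR.quadratic hR.sobolev_to_lipschitz
  exact ⟨hfin, hR.quadratic, min_le_right _ _, hN,
    hC.BE_mono (min_le_left _ _) hN hR.bochner, hR.sobolev_to_lipschitz, hgeo⟩

/-- from classes to functions -/
theorem secGE_of {κ : ℝ} (hC : IsGamma (sob m)) (hB : (sob m).BEi κ) {H : Type u}
    [NormedAddCommGroup H] [InnerProductSpace ℝ H] {ι : T.VF M → H} (hι : (T.sob m).IsL2TM ι)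
    (hcov : ∀ X' Y' : List ((M →ₘ[m] ℝ) × (M →ₘ[m] ℝ)), (sob m).IsTestV X' → (sob m).IsTestV Y' →
      (∃ V, (sob m).IsCov (fun X' => ι (coeV X')) X' Y' V) ∧
      (∃ V, (sob m).IsCovT (fun X' => ι (coeV X')) X' Y' V))
    {k f : M → ℝ} {F : M →ₘ[m] ℝ} (hF : R f F) (hF' : F ∈ (sob m).Test)
    (h : ∀ X' Y' : List ((M →ₘ[m] ℝ) × (M →ₘ[m] ℝ)), (sob m).IsTestV X' → (sob m).IsTestV Y' →
      ∫ x, k x * (F * ((sob m).ip X' X' * (sob m).ip Y' Y' - (sob m).ip X' Y' ^ 2) :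
        M →ₘ[m] ℝ) x ∂m ≤ (sob m).curv (fun X' => ι (coeV X')) X' Y' Y' X' F) :
    T.SecGE m ι k f := by
  intro X Y hX hY
  have hιS : (S.sob m).IsL2TM ι := hι
  have rX := RV_clsV (m := m) hX
  have rY := RV_clsV (m := m) hY
  obtain ⟨A, B, D, E, F₁, F₂, G, hA, hB', hD', hE, hF1, hF2, hG', hr⟩ :=
    (H236.curvEq_iff hC hB hι hcov rX rY rY rX hF hF').2 rfl
  have hEF : E = F₁ := by
    refine eq_of_reps (isL2TM_coe hC hιS) fun X' hX' => ?_
    have rX' := RV_coeV hX'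
    rw [hE _ rX'.testV, hF1 _ rX'.testV]
  refine ⟨A, B, D, E, F₂, G, hA, hB', hD', hE, hF2, hG', ?_⟩
  subst hEF
  rw [← hr]
  refine le_trans (le_of_eq ?_) (h _ _ rX.isTestV rY.isTestV)
  refine integral_congr_ae ?_
  have hR := hF.mul (R.sub ((rX.ip rX hC).mul (rY.ip rY hC)) (rX.ip rY hC).sq)
  filter_upwards [hR] with x hx
  exact congrArg (fun t => k x * t) hx

/-- from functions to classes -/
theorem of_secGE {κ : ℝ} (hC : IsGamma (sob m)) (hB : (sob m).BEi κ) {H : Type u}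
    [NormedAddCommGroup H] [InnerProductSpace ℝ H] {ι : T.VF M → H} (hι : (T.sob m).IsL2TM ι)
    (hcov : ∀ X' Y' : List ((M →ₘ[m] ℝ) × (M →ₘ[m] ℝ)), (sob m).IsTestV X' → (sob m).IsTestV Y' →
      (∃ V, (sob m).IsCov (fun X' => ι (coeV X')) X' Y' V) ∧
      (∃ V, (sob m).IsCovT (fun X' => ι (coeV X')) X' Y' V))
    {k : M → ℝ} {F : M →ₘ[m] ℝ} (hF' : F ∈ (sob m).Test) (h : T.SecGE m ι k F)
    {X' Y' : List ((M →ₘ[m] ℝ) × (M →ₘ[m] ℝ))} (hX' : (sob m).IsTestV X')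
    (hY' : (sob m).IsTestV Y') :
    ∫ x, k x * (F * ((sob m).ip X' X' * (sob m).ip Y' Y' - (sob m).ip X' Y' ^ 2) :
        M →ₘ[m] ℝ) x ∂m ≤ (sob m).curv (fun X' => ι (coeV X')) X' Y' Y' X' F := by
  have rX := RV_coeV hX'
  have rY := RV_coeV hY'
  obtain ⟨A, B, D, E, F₁, G, hA, hB', hD', hE, hF1, hG', hle⟩ := h _ _ rX.testV rY.testV
  have h1 := (H236.curvEq_iff hC hB hι hcov rX rY rY rX (R.coe F) hF').1
    ⟨A, B, D, E, E, F₁, G, hA, hB', hD', hE, hE, hF1, hG', rfl⟩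
  rw [← h1]
  refine le_trans (le_of_eq ?_) hle
  refine integral_congr_ae ?_
  have hR := (R.coe F).mul (R.sub ((rX.ip rX hC).mul (rY.ip rY hC)) (rX.ip rY hC).sq)
  filter_upwards [hR] with x hx
  exact congrArg (fun t => k x * t) hx.symm

/-- `F` vanishes off a ball -/
theorem TL_of_ball {K N : ℝ} (hM : ABSp m K N) {z : M} {ρ : ℝ} (hρ : 0 < ρ) {F : M →ₘ[m] ℝ}
    (hF : F ∈ (sob m).Test) (h : ∀ᵐ x ∂m, 2 * (ρ / 3) ≤ dist z x → F x = 0) :
    F ∈ TL (sob m).Test (sob m) {x | dist x z ≤ ρ} := by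
  obtain ⟨θ, g1, g2, g3, g4, g5⟩ := exists_cut_loc hM z (show 0 < ρ / 3 by positivity)
  refine ⟨hF, θ, g1, ?_, ?_⟩
  · rw [eq_iff_ae]
    filter_upwards [g4, h, mul_ae θ F] with x a1 a2 a3
    rw [a3]
    rcases le_or_gt (dist x z) (2 * (ρ / 3)) with hx | hx
    · rw [a1 hx, one_mul]
    · rw [a2 (by rw [dist_comm]; exact hx.le), mul_zero]
  · filter_upwards [g5] with x hx h
    have h' : ¬ dist x z ≤ ρ := h
    exact hx (by linarith [not_le.1 h'])

omit [CompleteSpace M] [m.IsOpenPosMeasure] in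
theorem TL_zero {z : M} {ρ : ℝ} {F : M →ₘ[m] ℝ}
    (h : F ∈ TL (sob m).Test (sob m) {x | dist x z ≤ ρ}) :
    ∀ᵐ x ∂m, ρ < dist z x → F x = 0 := by
  obtain ⟨-, θ, -, h1, h2⟩ := h
  rw [eq_iff_ae] at h1
  filter_upwards [h1, h2, mul_ae θ F] with x a1 a2 a3 hx
  have hx' : x ∉ {x | dist x z ≤ ρ} := by
    show ¬ dist x z ≤ ρ
    rw [dist_comm, not_le]; exact hx
  rw [← a1, a3, a2 hx', zero_mul]

/-- local and variable lower curvature bounds imply distributional bounds -/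
theorem localSec {K N : ℝ} (hN : 0 < N) (h : T.IsRCD m K N) (hgeo : T.IsGeodesic M) :
    T.LocalSec m := by
  have hS := T_rcd h
  have hM : ABSp m (min K 0) N := abSp_of hN hS hgeo
  have hC := hM.hC
  have hB := hM.hB
  have hsf : SigmaFinite m := sigmaFinite_of_ball hM.hfin
  obtain ⟨Gr, hG, -⟩ := hC.toIsDir.exists_grad
  obtain ⟨U, hU⟩ := hC.exists_HU hB hG
  obtain ⟨H, i1, i2, ι, hιS⟩ : ∃ (H : Type u) (_ : NormedAddCommGroup H)
      (_ : InnerProductSpace ℝ H) (ι : S.VF M → H), (S.sob m).IsL2TM ι := by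
    obtain ⟨H, i1, i2, i3, ι, hι⟩ := hG.exists_model hC hB
    refine ⟨H, i1, i2, fun X => ι (clsV m X), i3, ?_, ?_⟩
    · intro X Y hX hY
      have rX := RV_clsV hX
      have rY := RV_clsV hY
      rw [hι.1 _ _ rX.isTestV rY.isTestV, (rX.ip rY hC).int]
    · intro v ε hε
      obtain ⟨w, ⟨X', hX', rfl⟩, hw⟩ := Metric.mem_closure_iff.1 (hι.2 v) ε hε
      have r := RV_coeV hX'
      refine ⟨coeV X', r.testV, ?_⟩
      have e : clsV m (coeV X') = X' := by
        unfold clsV coeV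
        rw [List.map_map]
        conv_rhs => rw [← List.map_id X']
        refine List.map_congr_left fun p _ => ?_
        simp only [Function.comp, id, R_cls (R.coe p.1), R_cls (R.coe p.2)]
      change ‖ι (clsV m (coeV X')) - v‖ < ε
      rw [e, ← dist_eq_norm, dist_comm]
      exact hw
  have hι : (T.sob m).IsL2TM ι := hιS
  have hcs : CompleteSpace H := hιS.1
  have hι' := isL2TM_coe hC hιS
  have hcov : ∀ X' Y' : List ((M →ₘ[m] ℝ) × (M →ₘ[m] ℝ)), (sob m).IsTestV X' →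
      (sob m).IsTestV Y' → (∃ V, (sob m).IsCov (fun X' => ι (coeV X')) X' Y' V) ∧
      (∃ V, (sob m).IsCovT (fun X' => ι (coeV X')) X' Y' V) := fun X' Y' hX hY =>
    ⟨(covE_rep hC hB hG hU hι' hX hY).1, (covTE_rep hC hB hG hU hι' hX hY).1⟩
  -- distributional bounds near a point in terms of classes
  have hnear : ∀ {κ : ℝ} {z : M}, T.SecNear m ι κ z →
      ∀ X Y : List ((M →ₘ[m] ℝ) × (M →ₘ[m] ℝ)), (sob m).IsTestV X → (sob m).IsTestV Y →
      NearI m (fun X' => ι (coeV X')) X Y κ z := by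
    rintro κ z ⟨r, hr, hz⟩ X Y hX hY
    refine ⟨r / 2, by positivity, fun F hF hF0 => ?_⟩
    have h1 := of_secGE hC hB hι hcov hF.1 (hz F ((R.coe F).test_iff.2 hF.1)
      (nonneg_iff_ae.1 hF0) (by
        filter_upwards [TL_zero hF] with x hx h1
        exact hx (by linarith))) hX hY
    rw [integral_const_mul] at h1
    exact h1
  refine ⟨H, i1, i2, ι, hι, ?_, ?_, ?_⟩
  · -- (a)
    intro κ z hz
    obtain ⟨ρ, hρ, hb⟩ := ball_curv hM hG hU hι' hz
    refine ⟨2 * (ρ / 3), by positivity, fun f hf hf0 hfz => ?_⟩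
    obtain ⟨F, hF, hF'⟩ := S_test_exists (m := m) hf
    have hF0 : 0 ≤ F := by
      rw [nonneg_iff_ae]
      filter_upwards [hF, hf0] with x a1 a2
      rwa [← a1]
    have hFz : F ∈ TL (sob m).Test (sob m) {x | dist x z ≤ ρ} := TL_of_ball hM hρ hF' (by
      filter_upwards [hF, hfz] with x a1 a2 hx
      rw [← a1]; exact a2 hx)
    refine secGE_of hC hB hι hcov hF hF' fun X' Y' hX' hY' => ?_
    rw [integral_const_mul]
    exact hb X' Y' hX' hY' F hFz hF0
  · -- (b)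
    intro k A hk hA hcurv f hf hf0 hfA
    obtain ⟨F, hF, hF'⟩ := S_test_exists (m := m) hf
    have hF0 : 0 ≤ F := by
      rw [nonneg_iff_ae]
      filter_upwards [hF, hf0] with x a1 a2
      rwa [← a1]
    refine secGE_of hC hB hι hcov hF hF' fun X' Y' hX' hY' => ?_
    obtain ⟨B, hkB⟩ := hA.exists_bound_of_continuousOn hk.continuousOn
    -- a bounded continuous function that coincides with `k` on `A`
    obtain ⟨k', hk'⟩ : ∃ k' : M → ℝ, k' = fun x => max (-|B|) (min (k x) |B|) := ⟨_, rfl⟩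
    have c' : Continuous k' := by
      rw [hk']; exact continuous_const.max (hk.min continuous_const)
    have b' : ∀ x, |k' x| ≤ |B| := by
      intro x
      rw [hk', abs_le]
      refine ⟨le_max_left _ _, max_le ?_ (min_le_right _ _)⟩
      linarith [abs_nonneg B]
    have e' : ∀ x ∈ A, k' x = k x := by
      intro x hx
      have h1 := hkB x hx
      rw [Real.norm_eq_abs] at h1
      have h2 := abs_le.1 (h1.trans (le_abs_self B))
      rw [hk']
      simp only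
      rw [min_eq_left h2.2, max_eq_right h2.1]
    have hFA : ∀ᵐ x ∂m, x ∉ A → F x = 0 := by
      filter_upwards [hF, hfA] with x a1 a2 hx
      rw [← a1]; exact a2 hx
    have key := part hM hG hU hι' hX' hY' c' b' hA (fun z hz κ hκ =>
      hnear (hcurv z hz κ (by rwa [e' z hz] at hκ)) X' Y' hX' hY') hF' hF0 hFA
    refine le_trans (le_of_eq ?_) key
    refine integral_congr_ae ?_
    filter_upwards [hFA, mul_ae F ((sob m).ip X' X' * (sob m).ip Y' Y' - (sob m).ip X' Y' ^ 2)]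
      with x a1 a2
    by_cases hx : x ∈ A
    · rw [e' x hx]
    · rw [a2, a1 hx]; ring
  · -- (c)
    rintro hp k hk ⟨B, hkB⟩
    constructor
    · intro hall z κ hκ
      obtain ⟨r, hr, hkr⟩ := Metric.continuous_iff.1 hk z (k z - κ) (by linarith)
      refine ⟨r, hr, fun f hf hf0 hfz => ?_⟩
      obtain ⟨F, hF, hF'⟩ := S_test_exists (m := m) hf
      have hF0 : 0 ≤ F := by
        rw [nonneg_iff_ae]
        filter_upwards [hF, hf0] with x a1 a2
        rwa [← a1]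
      refine secGE_of hC hB hι hcov hF hF' fun X' Y' hX' hY' => ?_
      have hFT : (T.sob m).Test F := (R.coe F).test_iff.2 hF'
      refine le_trans ?_ (of_secGE hC hB hι hcov hF' (hall F hFT (nonneg_iff_ae.1 hF0)) hX' hY')
      have hm : MemLp (F * ((sob m).ip X' X' * (sob m).ip Y' Y' - (sob m).ip X' Y' ^ 2) :
          M →ₘ[m] ℝ) 1 m := mem_mul_top (hC.test_A hF').2 (H236.wedge_mem hC hB hX' hY')
      refine integral_mono_ae ((int_of_mem hm).const_mul κ) (int_mul hk hkB hm) ?_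
      filter_upwards [hF, hfz, nonneg_iff_ae.1 hF0, wedge_nonneg hC hG hX' hY',
        mul_ae F ((sob m).ip X' X' * (sob m).ip Y' Y' - (sob m).ip X' Y' ^ 2)]
        with x a1 a2 a3 a4 a5
      simp only [a5]
      rcases lt_or_ge (dist z x) r with hx | hx
      · have h1 := hkr x (by rw [dist_comm]; exact hx)
        rw [Real.dist_eq] at h1
        have h2 := (abs_lt.1 h1).1
        exact mul_le_mul_of_nonneg_right (by linarith) (mul_nonneg a3 a4)
      · rw [← a1, a2 hx]; simp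
    · intro hcurv f hf hf0
      obtain ⟨F, hF, hF'⟩ := S_test_exists (m := m) hf
      have hF0 : 0 ≤ F := by
        rw [nonneg_iff_ae]
        filter_upwards [hF, hf0] with x a1 a2
        rwa [← a1]
      exact secGE_of hC hB hι hcov hF hF' fun X' Y' hX' hY' =>
        glob hM hG hU hι' hX' hY' hk hkB (fun z κ hκ => hnear (hcurv z κ hκ) X' Y' hX' hY')
          hF' hF0

end final

end Vale.Agent.P233.H154
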