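import Vale.Agent.P233.Bd3.B10

/-!
# The quadratic (1+3)-point inequality from triangle comparison in a ball

Local version of the corresponding part of `Vale.Agent.P233.Bd3.B4` and `B10`.
-/

set_option linter.all false

open Real Filter Topology

namespace Vale.Agent.P233.H154

open Vale.Agent.P233 Vale.Agent.P233.AB

/-- a geodesic space with the comparison inequality for triangles with vertices in a ball -/
structure LocAlex (M : Type*) [MetricSpace M] (κ : ℝ) (z₀ : M) (τ : ℝ) : Prop where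
  geodesic : ∀ x y : M, ∀ s t : ℝ, 0 ≤ s → 0 ≤ t → s + t = dist x y →
    ∃ w, dist x w = s ∧ dist w y = t
  comparison : ∀ p x y w : M, dist z₀ p < τ → dist z₀ x < τ → dist z₀ y < τ →
    dist x w + dist w y = dist x y →
    (0 < κ → dist p x + dist p y + dist x y < 2 * π / √κ) →
    Cmp κ (dist p x) (dist p y) (dist x w) (dist w y) (dist p w)

section Geo

variable {M : Type*} [MetricSpace M] {κ R : ℝ} {z₀ : M} {τ : ℝ}

lemma LocAlex.bd {o p : M} (hoτ : dist z₀ o + R < τ) (h : dist o p ≤ R) : dist z₀ p < τ := by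
  have := dist_triangle z₀ o p
  linarith

lemma LocAlex.bd0 {o : M} (hoτ : dist z₀ o + R < τ) (h : 0 < R) : dist z₀ o < τ := by
  linarith

lemma LocAlex.mono_cv (h : LocAlex M κ z₀ τ) (hR : Sml κ R) {o p x w : M} (hoτ : dist z₀ o + R < τ)
    (hw : dist o w + dist w x = dist o x) (how : 0 < dist o w) (hop : 0 < dist o p)
    (hox : dist o x ≤ R) (hopR : dist o p ≤ R) :
    cvA κ (dist o w) (dist o p) (dist w p) ≤ cvA κ (dist o x) (dist o p) (dist x p) := by
  have hR0 : 0 < R := lt_of_lt_of_le hop hopR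
  have hpx : dist p x ≤ 2 * R := by
    have := dist_triangle p o x
    rw [dist_comm p o] at this
    linarith
  have hC := h.comparison p o x w (LocAlex.bd hoτ hopR) (LocAlex.bd0 hoτ hR0) (LocAlex.bd hoτ hox) hw (perim_lt hR hR0 (by rw [dist_comm p o]; linarith))
  have h1 := cvA_mono hR how dist_nonneg (q := dist p o) (by rw [dist_comm]; exact hop)
    (by rw [hw]; linarith) (by rw [dist_comm]; linarith) hC
  rw [hw, dist_comm p o, dist_comm p x, dist_comm p w] at h1
  exact h1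

lemma LocAlex.adj_ang (h : LocAlex M κ z₀ τ) (hR : Sml κ R) {o p x y : M} (hoτ : dist z₀ o + R < τ)
    (hxy : dist x o + dist o y = dist x y) (hox : 0 < dist o x) (hoy : 0 < dist o y)
    (hop : 0 < dist o p) (hoxR : dist o x ≤ R) (hoyR : dist o y ≤ R) (hopR : dist o p ≤ R) :
    cang κ (dist o x) (dist o p) (dist x p) + cang κ (dist o y) (dist o p) (dist y p) ≤ π := by
  have hR0 : 0 < R := lt_of_lt_of_le hop hopR
  have hpx : dist p x ≤ 2 * R := by
    have := dist_triangle p o x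
    rw [dist_comm p o] at this
    linarith
  have hpy : dist p y ≤ 2 * R := by
    have := dist_triangle p o y
    rw [dist_comm p o] at this
    linarith
  have hC := h.comparison p x y o (LocAlex.bd hoτ hopR) (LocAlex.bd hoτ hoxR) (LocAlex.bd hoτ hoyR) hxy (perim_lt hR hR0 (by rw [← hxy, dist_comm x o]; linarith))
  have h1 := cvA_adj hR (s := dist x o) (t := dist o y) (r := dist p o)
    (by rw [dist_comm]; exact hox) hoy (by rw [dist_comm]; exact hop)
    (by rw [dist_comm]; linarith) (by linarith) (by rw [dist_comm]; linarith) hC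
  rw [cang_eq_arccos, cang_eq_arccos]
  apply arccos_add_le_pi
  rw [dist_comm x o, dist_comm p o, dist_comm p x, dist_comm p y] at h1
  exact h1

lemma LocAlex.tri (h : LocAlex M κ z₀ τ) (hR : Sml κ R) {o z x y : M} {α β : ℝ} (hoτ : dist z₀ o + R < τ)
    (hoz : 0 < dist o z) (hox : 0 < dist o x) (hoy : 0 < dist o y)
    (hozR : dist o z ≤ R) (hoxR : dist o x ≤ R) (hoyR : dist o y ≤ R)
    (hα : ∀ c b, dist o c + dist c z = dist o z → dist o b + dist b x = dist o x →
      0 < dist o c → 0 < dist o b → cang κ (dist o c) (dist o b) (dist c b) ≤ α)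
    (hβ : ∀ c b, dist o c + dist c z = dist o z → dist o b + dist b y = dist o y →
      0 < dist o c → 0 < dist o b → cang κ (dist o c) (dist o b) (dist c b) ≤ β) :
    cang κ (dist o x) (dist o y) (dist x y) ≤ α + β := by
  have cnn : ∀ a b c, 0 ≤ cang κ a b c := by
    intro a b c; rw [cang_eq_arccos]; exact Real.arccos_nonneg _
  have hα0 : 0 ≤ α := (cnn _ _ _).trans (hα z x (by simp) (by simp) hoz hox)
  have hβ0 : 0 ≤ β := (cnn _ _ _).trans (hβ z y (by simp) (by simp) hoz hoy)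
  rcases le_or_gt π (α + β) with hπ | hπ
  · rw [cang_eq_arccos]; exact (Real.arccos_le_pi _).trans hπ
  obtain ⟨l, D₂, D₃, hl, hD₂, hD₃, e₂, e₃, e₂₃⟩ := planar_split hα0 hβ0 hπ
  have hRp : 0 < R := lt_of_lt_of_le hoz hozR
  obtain ⟨m, hm⟩ : ∃ m, m = min (dist o z / l) (min (dist o x) (dist o y)) := ⟨_, rfl⟩
  have hm0 : 0 < m := by rw [hm]; exact lt_min (by positivity) (lt_min hox hoy)
  have hmz : l * m ≤ dist o z := by
    have : m ≤ dist o z / l := by rw [hm]; exact min_le_left _ _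
    rw [le_div_iff₀ hl] at this; linarith
  have hmx : m ≤ dist o x := by rw [hm]; exact (min_le_right _ _).trans (min_le_left _ _)
  have hmy : m ≤ dist o y := by rw [hm]; exact (min_le_right _ _).trans (min_le_right _ _)
  let ρ : ℕ → ℝ := fun n => m * (1 / ((n : ℝ) + 1))
  have hρ0 : ∀ n, 0 < ρ n := fun n => by positivity
  have hρm : ∀ n, ρ n ≤ m := by
    intro n
    have : 1 / ((n : ℝ) + 1) ≤ 1 := by
      rw [div_le_one (by positivity)]; linarith [Nat.cast_nonneg (α := ℝ) n]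
    calc m * (1 / ((n : ℝ) + 1)) ≤ m * 1 := mul_le_mul_of_nonneg_left this hm0.le
      _ = m := mul_one m
  have hρt : Tendsto ρ atTop (𝓝 0) := by
    have := (tendsto_one_div_add_atTop_nhds_zero_nat (𝕜 := ℝ)).const_mul m
    rwa [mul_zero] at this
  have ex1 : ∀ n, ∃ c, dist o c = l * ρ n ∧ dist c z = dist o z - l * ρ n := fun n =>
    h.geodesic o z _ _ (by have := hρ0 n; positivity)
      (by linarith only [mul_le_mul_of_nonneg_left (hρm n) hl.le, hmz]) (by ring)
  have ex2 : ∀ n, ∃ b, dist o b = ρ n ∧ dist b x = dist o x - ρ n := fun n =>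
    h.geodesic o x _ _ (hρ0 n).le (by linarith [hρm n]) (by ring)
  have ex3 : ∀ n, ∃ b, dist o b = ρ n ∧ dist b y = dist o y - ρ n := fun n =>
    h.geodesic o y _ _ (hρ0 n).le (by linarith [hρm n]) (by ring)
  choose c hc1 hc2 using ex1
  choose b hb1 hb2 using ex2
  choose d hd1 hd2 using ex3
  let F : ℕ → ℝ × ℝ × ℝ := fun n => (dist (c n) (b n) / ρ n, dist (c n) (d n) / ρ n,
    dist (b n) (d n) / ρ n)
  have hF : ∀ n, F n ∈ Set.Icc (0:ℝ) (l + 1) ×ˢ (Set.Icc (0:ℝ) (l + 1) ×ˢ Set.Icc (0:ℝ) 2) := by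
    intro n
    have hρn := hρ0 n
    refine ⟨⟨by positivity, ?_⟩, ⟨by positivity, ?_⟩, ⟨by positivity, ?_⟩⟩
    · show dist (c n) (b n) / ρ n ≤ l + 1
      rw [div_le_iff₀ hρn]
      have := dist_triangle (c n) o (b n)
      rw [dist_comm (c n) o, hc1, hb1] at this; linarith
    · show dist (c n) (d n) / ρ n ≤ l + 1
      rw [div_le_iff₀ hρn]
      have := dist_triangle (c n) o (d n)
      rw [dist_comm (c n) o, hc1, hd1] at this; linarith
    · show dist (b n) (d n) / ρ n ≤ 2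
      rw [div_le_iff₀ hρn]
      have := dist_triangle (b n) o (d n)
      rw [dist_comm (b n) o, hb1, hd1] at this; linarith
  obtain ⟨⟨ξ, η, ζ⟩, -, φ, hφ, hlim⟩ :=
    (isCompact_Icc.prod (isCompact_Icc.prod isCompact_Icc)).tendsto_subseq hF
  have hl1 : Tendsto (fun n => dist (c (φ n)) (b (φ n)) / ρ (φ n)) atTop (𝓝 ξ) :=
    (continuous_fst.tendsto _).comp hlim
  have hl2 : Tendsto (fun n => dist (c (φ n)) (d (φ n)) / ρ (φ n)) atTop (𝓝 η) :=
    ((continuous_fst.comp continuous_snd).tendsto _).comp hlim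
  have hl3 : Tendsto (fun n => dist (b (φ n)) (d (φ n)) / ρ (φ n)) atTop (𝓝 ζ) :=
    ((continuous_snd.comp continuous_snd).tendsto _).comp hlim
  have hρφ : Tendsto (fun n => ρ (φ n)) atTop (𝓝 0) := hρt.comp hφ.tendsto_atTop
  have hρne : ∀ n, ρ (φ n) ≠ 0 := fun n => (hρ0 _).ne'
  have q1 : cos α ≤ (l ^ 2 + 1 ^ 2 - ξ ^ 2) / (2 * l * 1) := by
    refine ge_of_tendsto (tendsto_cvA (κ := κ) hl one_pos hρφ hρne hl1) (Eventually.of_forall ?_)
    intro n
    have h1 := hα (c (φ n)) (b (φ n)) (by rw [hc1, hc2]; ring) (by rw [hb1, hb2]; ring)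
      (by rw [hc1]; have := hρ0 (φ n); positivity) (by rw [hb1]; exact hρ0 _)
    rw [hc1, hb1, cang_eq_arccos] at h1
    rw [one_mul, div_mul_cancel₀ _ (hρne n)]
    have hρn := hρ0 (φ n)
    refine cos_le_of_arccos_le ?_ (by linarith) h1
    refine cvA_ge hR (by positivity) hρn dist_nonneg ?_ ?_ ?_
    · have := dist_triangle (c (φ n)) o (b (φ n))
      rw [dist_comm (c (φ n)) o, hc1, hb1] at this; exact this
    · linarith only [mul_le_mul_of_nonneg_left (hρm (φ n)) hl.le, hmz, hRp, hozR]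
    · linarith [hρm (φ n)]
  have q2 : cos β ≤ (l ^ 2 + 1 ^ 2 - η ^ 2) / (2 * l * 1) := by
    refine ge_of_tendsto (tendsto_cvA (κ := κ) hl one_pos hρφ hρne hl2) (Eventually.of_forall ?_)
    intro n
    have h1 := hβ (c (φ n)) (d (φ n)) (by rw [hc1, hc2]; ring) (by rw [hd1, hd2]; ring)
      (by rw [hc1]; have := hρ0 (φ n); positivity) (by rw [hd1]; exact hρ0 _)
    rw [hc1, hd1, cang_eq_arccos] at h1
    rw [one_mul, div_mul_cancel₀ _ (hρne n)]
    have hρn := hρ0 (φ n)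
    refine cos_le_of_arccos_le ?_ (by linarith) h1
    refine cvA_ge hR (by positivity) hρn dist_nonneg ?_ ?_ ?_
    · have := dist_triangle (c (φ n)) o (d (φ n))
      rw [dist_comm (c (φ n)) o, hc1, hd1] at this; exact this
    · linarith only [mul_le_mul_of_nonneg_left (hρm (φ n)) hl.le, hmz, hRp, hozR]
    · linarith [hρm (φ n)]
  have q3 : (1 ^ 2 + 1 ^ 2 - ζ ^ 2) / (2 * 1 * 1) ≤ cvA κ (dist o x) (dist o y) (dist x y) := by
    refine le_of_tendsto (tendsto_cvA (κ := κ) one_pos one_pos hρφ hρne hl3)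
      (Eventually.of_forall ?_)
    intro n
    have hρn := hρ0 (φ n)
    rw [one_mul, div_mul_cancel₀ _ (hρne n)]
    have m1 := h.mono_cv hR (o := o) (hoτ := hoτ) (p := y) (x := x) (w := b (φ n))
      (by rw [hb1, hb2]; ring) (by rw [hb1]; exact hρn) hoy hoxR hoyR
    have m2 := h.mono_cv hR (o := o) (hoτ := hoτ) (p := b (φ n)) (x := y) (w := d (φ n))
      (by rw [hd1, hd2]; ring) (by rw [hd1]; exact hρn) (by rw [hb1]; exact hρn) hoyR
      (by rw [hb1]; linarith [hρm (φ n)])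
    rw [hb1] at m1 m2
    rw [hd1, dist_comm (d (φ n)), dist_comm y (b (φ n)), cvA_comm κ (dist o y)] at m2
    exact m2.trans m1
  have q4 : ζ ≤ ξ + η := by
    refine le_of_tendsto_of_tendsto' hl3 (hl1.add hl2) ?_
    intro n
    have hρn := hρ0 (φ n)
    rw [← add_div]
    apply div_le_div_of_nonneg_right _ hρn.le
    have := dist_triangle (b (φ n)) (c (φ n)) (d (φ n))
    rw [dist_comm (b (φ n)) (c (φ n))] at this
    exact this
  have hξ0 : 0 ≤ ξ := ge_of_tendsto' hl1 fun n => by have := hρ0 (φ n); positivity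
  have hη0 : 0 ≤ η := ge_of_tendsto' hl2 fun n => by have := hρ0 (φ n); positivity
  have hζ0 : 0 ≤ ζ := ge_of_tendsto' hl3 fun n => by have := hρ0 (φ n); positivity
  have r1 : ξ ≤ D₂ := by
    rw [le_div_iff₀ (by positivity)] at q1
    apply abs_le_of_sq_le_sq' _ hD₂ |>.2
    linarith only [q1, e₂]
  have r2 : η ≤ D₃ := by
    rw [le_div_iff₀ (by positivity)] at q2
    apply abs_le_of_sq_le_sq' _ hD₃ |>.2
    linarith only [q2, e₃]
  have r3 : ζ ≤ 2 * sin ((α + β) / 2) := by linarith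
  have r4 : cos (α + β) ≤ cvA κ (dist o x) (dist o y) (dist x y) := by
    refine le_trans ?_ q3
    have e : cos (α + β) = 1 - 2 * sin ((α + β) / 2) ^ 2 := by
      have : α + β = 2 * ((α + β) / 2) := by ring
      rw [this, Real.cos_two_mul, Real.cos_sq']
      have : 2 * ((α + β) / 2) / 2 = (α + β) / 2 := by ring
      rw [this]; ring
    rw [e]
    have : ζ ^ 2 ≤ (2 * sin ((α + β) / 2)) ^ 2 := pow_le_pow_left₀ hζ0 r3 2
    linarith only [this]
  rw [cang_eq_arccos]
  have := Real.antitone_arccos r4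
  rwa [Real.arccos_cos (by linarith) hπ.le] at this

lemma LocAlex.sum_at (h : LocAlex M κ z₀ τ) (hR : Sml κ R) {o z x₁ x₂ x₃ : M} (hoτ : dist z₀ o + R < τ)
    (hb : dist z o + dist o x₁ = dist z x₁)
    (hoz : 0 < dist o z) (ho1 : 0 < dist o x₁) (ho2 : 0 < dist o x₂) (ho3 : 0 < dist o x₃)
    (hozR : dist o z ≤ R) (ho1R : dist o x₁ ≤ R) (ho2R : dist o x₂ ≤ R) (ho3R : dist o x₃ ≤ R) :
    cang κ (dist o x₁) (dist o x₂) (dist x₁ x₂) + cang κ (dist o x₂) (dist o x₃) (dist x₂ x₃)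
      + cang κ (dist o x₁) (dist o x₃) (dist x₁ x₃) ≤ 2 * π := by
  have key : ∀ x, 0 < dist o x → dist o x ≤ R → ∃ α,
      (∀ c b, dist o c + dist c z = dist o z → dist o b + dist b x = dist o x →
        0 < dist o c → 0 < dist o b → cang κ (dist o c) (dist o b) (dist c b) ≤ α) ∧
      cang κ (dist o x₁) (dist o x) (dist x₁ x) ≤ π - α := by
    intro x hx hxR
    let S : Set ℝ := {θ | ∃ c b, dist o c + dist c z = dist o z ∧ dist o b + dist b x = dist o x ∧
        0 < dist o c ∧ 0 < dist o b ∧ θ = cang κ (dist o c) (dist o b) (dist c b)}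
    have hne : S.Nonempty := ⟨_, z, x, by simp, by simp, hoz, hx, rfl⟩
    have hub : ∀ θ ∈ S, θ ≤ π - cang κ (dist o x₁) (dist o x) (dist x₁ x) := by
      rintro θ ⟨c, b, hc, hbx, hc0, hb0, rfl⟩
      have hcz : dist o c ≤ dist o z := by linarith [dist_nonneg (x := c) (y := z)]
      have hbx' : dist o b ≤ dist o x := by linarith [dist_nonneg (x := b) (y := x)]
      have h1 : dist c o + dist o x₁ = dist c x₁ := by
        apply le_antisymm
        · have := dist_triangle z c x₁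
          rw [dist_comm z c] at this
          rw [dist_comm z o] at hb
          rw [dist_comm c o]
          linarith
        · exact dist_triangle c o x₁
      have h2 := h.adj_ang hR (o := o) (hoτ := hoτ) (p := b) (x := c) (y := x₁) h1 hc0 ho1 hb0
        (by linarith) ho1R (by linarith)
      have h3 := h.mono_cv hR (o := o) (hoτ := hoτ) (p := x₁) (x := x) (w := b) hbx hb0 ho1 hxR ho1R
      have h4 := Real.antitone_arccos h3
      rw [← cang_eq_arccos, ← cang_eq_arccos, cang_comm κ (dist o x), cang_comm κ (dist o b),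
        dist_comm x x₁, dist_comm b x₁] at h4
      linarith
    have hbdd : BddAbove S := ⟨_, hub⟩
    refine ⟨sSup S, ?_, ?_⟩
    · intro c b hc hbx hc0 hb0
      exact le_csSup hbdd ⟨c, b, hc, hbx, hc0, hb0, rfl⟩
    · have := csSup_le hne hub
      linarith
  obtain ⟨α, hα, hα'⟩ := key x₂ ho2 ho2R
  obtain ⟨β, hβ, hβ'⟩ := key x₃ ho3 ho3R
  have := h.tri hR hoτ hoz ho2 ho3 hozR ho2R ho3R hα hβ
  linarith

end Geo

theorem LocAlex.angle_sum {M : Type*} [MetricSpace M] {κ : ℝ} {z₀ : M} {τ : ℝ} (hτ : 0 < τ)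
    (h : LocAlex M κ z₀ τ) :
    ∃ r₀ > 0, ∀ z x₁ x₂ x₃ : M, dist z₀ z ≤ τ / 2 → z ≠ x₁ → z ≠ x₂ → z ≠ x₃ → dist z x₁ ≤ r₀ → dist z x₂ ≤ r₀ →
      dist z x₃ ≤ r₀ →
      cang κ (dist z x₁) (dist z x₂) (dist x₁ x₂) + cang κ (dist z x₂) (dist z x₃) (dist x₂ x₃)
        + cang κ (dist z x₁) (dist z x₃) (dist x₁ x₃) ≤ 2 * π := by
  obtain ⟨r₀, hr0, hr, hrτ⟩ : ∃ r₀ > 0, Sml κ (2 * r₀) ∧ 8 * r₀ ≤ τ := by
    rcases lt_or_ge 0 κ with hκ | hκ
    · have h0 : 0 < √κ := Real.sqrt_pos.2 hκ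
      refine ⟨min (π / (16 * √κ)) (τ / 8), lt_min (by positivity) (by positivity), fun _ => ?_, ?_⟩
      · have h1 : min (π / (16 * √κ)) (τ / 8) ≤ π / (16 * √κ) := min_le_left _ _
        have h2 : √κ * min (π / (16 * √κ)) (τ / 8) ≤ √κ * (π / (16 * √κ)) :=
          mul_le_mul_of_nonneg_left h1 h0.le
        have h3 : √κ * (π / (16 * √κ)) = π / 16 := by field_simp
        have := Real.pi_pos
        linarith
      · have := min_le_right (π / (16 * √κ)) (τ / 8)
        linarith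
    · exact ⟨τ / 8, by positivity, fun h' => absurd h' (not_lt.2 hκ), by linarith⟩
  refine ⟨r₀, hr0, ?_⟩
  intro z x₁ x₂ x₃ hz n1 n2 n3 d1 d2 d3
  have p1 : 0 < dist z x₁ := dist_pos.2 n1
  have p2 : 0 < dist z x₂ := dist_pos.2 n2
  have p3 : 0 < dist z x₃ := dist_pos.2 n3
  have ex : ∀ n : ℕ, ∃ w, dist z w = dist z x₁ * (1 / ((n : ℝ) + 1 + 1)) ∧
      dist w x₁ = dist z x₁ - dist z x₁ * (1 / ((n : ℝ) + 1 + 1)) := by
    intro n
    have : 1 / ((n : ℝ) + 1 + 1) ≤ 1 := by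
      rw [div_le_one (by positivity)]; linarith [Nat.cast_nonneg (α := ℝ) n]
    exact h.geodesic z x₁ _ _ (by positivity)
      (by linarith only [mul_le_mul_of_nonneg_left this p1.le]) (by ring)
  choose w hw1 hw2 using ex
  have hε : Tendsto (fun n : ℕ => dist z x₁ * (1 / ((n : ℝ) + 1 + 1))) atTop (𝓝 0) := by
    have h1 := (tendsto_one_div_add_atTop_nhds_zero_nat (𝕜 := ℝ)).comp (tendsto_add_atTop_nat 1)
    have h2 := h1.const_mul (dist z x₁)
    rw [mul_zero] at h2
    refine h2.congr fun n => ?_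
    simp [Function.comp]
  have hwz : Tendsto (fun n => dist z (w n)) atTop (𝓝 0) := by
    simpa only [hw1] using hε
  have hwt : Tendsto w atTop (𝓝 z) := by
    rw [tendsto_iff_dist_tendsto_zero]
    simpa only [dist_comm] using hwz
  have t1 : Tendsto (fun n => dist (w n) x₁) atTop (𝓝 (dist z x₁)) :=
    hwt.dist tendsto_const_nhds
  have t2 : Tendsto (fun n => dist (w n) x₂) atTop (𝓝 (dist z x₂)) :=
    hwt.dist tendsto_const_nhds
  have t3 : Tendsto (fun n => dist (w n) x₃) atTop (𝓝 (dist z x₃)) :=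
    hwt.dist tendsto_const_nhds
  have T := ((tendsto_cang (κ := κ) (c := dist x₁ x₂) hr p1 p2 (by linarith) (by linarith) t1 t2).add
    (tendsto_cang (κ := κ) (c := dist x₂ x₃) hr p2 p3 (by linarith) (by linarith) t2 t3)).add
    (tendsto_cang (κ := κ) (c := dist x₁ x₃) hr p1 p3 (by linarith) (by linarith) t1 t3)
  refine le_of_tendsto T ?_
  filter_upwards [t2.eventually (lt_mem_nhds p2), t3.eventually (lt_mem_nhds p3)] with n e2 e3
  have hlt : 1 / ((n : ℝ) + 1 + 1) < 1 := by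
    rw [div_lt_one (by positivity)]; linarith [Nat.cast_nonneg (α := ℝ) n]
  have hlt0 : 0 < 1 / ((n : ℝ) + 1 + 1) := by positivity
  have hzw : dist z (w n) ≤ dist z x₁ := by rw [hw1]; (by_contra nlg; linarith only [nlg, mul_pos (sub_pos.2 p1) (sub_pos.2 hlt), mul_pos (sub_pos.2 (not_le.1 nlg)) (sub_pos.2 hlt0), mul_pos (sub_pos.2 (not_le.1 nlg)) (sub_pos.2 hlt)])
  have hzw0 : 0 < dist z (w n) := by rw [hw1]; positivity
  have tr : ∀ x, dist z x ≤ r₀ → dist (w n) x ≤ 2 * r₀ := by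
    intro x hx
    have := dist_triangle (w n) z x
    rw [dist_comm (w n) z] at this
    linarith
  refine h.sum_at hr (o := w n) (hoτ := by
    have := dist_triangle z₀ z (w n)
    linarith) (z := z) (by rw [hw1, hw2]; ring) (by rw [dist_comm]; exact hzw0)
    (by rw [hw2]; (by_contra nlg; linarith only [nlg, mul_pos (sub_pos.2 hlt) (sub_pos.2 hzw0), mul_nonneg (le_of_lt (sub_pos.2 hlt)) (sub_nonneg.2 hzw), mul_nonneg (sub_nonneg.2 (not_lt.1 nlg)) (le_of_lt (sub_pos.2 hlt0)), mul_nonneg (sub_nonneg.2 (not_lt.1 nlg)) (le_of_lt (sub_pos.2 hlt))])) e2 e3 (by rw [dist_comm]; linarith) (tr _ d1) (tr _ d2) (tr _ d3)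

theorem LocAlex.lss {M : Type*} [MetricSpace M] {κ : ℝ} {z₀ : M} {τ : ℝ} (hτ : 0 < τ)
    (h : LocAlex M κ z₀ τ) :
    ∃ r₀ > 0, ∃ C ≥ 0, ∀ (z x₁ x₂ x₃ : M) (r : ℝ), dist z₀ z ≤ τ / 2 → r ≤ r₀ → dist z x₁ ≤ r → dist z x₂ ≤ r →
      dist z x₃ ≤ r →
      dist x₁ x₂ ^ 2 + dist x₂ x₃ ^ 2 + dist x₁ x₃ ^ 2 +
        κ / 4 * (2 * (dist z x₁ ^ 2 * dist z x₂ ^ 2 + dist z x₂ ^ 2 * dist z x₃ ^ 2
          + dist z x₁ ^ 2 * dist z x₃ ^ 2)
          - (dist z x₁ ^ 4 + dist z x₂ ^ 4 + dist z x₃ ^ 4))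
        ≤ 3 * (dist z x₁ ^ 2 + dist z x₂ ^ 2 + dist z x₃ ^ 2) + C * r ^ 6 := by
  obtain ⟨r₁, hr1, H1⟩ := h.angle_sum hτ
  obtain ⟨r₂, hr2, C, hC, H2⟩ := lss_of_angle_sum κ
  have hK : 0 < 1 + |κ| := by positivity
  refine ⟨min r₁ (min r₂ (1 / (1 + |κ|))), lt_min hr1 (lt_min hr2 (by positivity)), C, hC, ?_⟩
  intro z x₁ x₂ x₃ r hz hr h1 h2 h3
  have k1 : r ≤ r₁ := hr.trans (min_le_left _ _)
  have k2 : r ≤ r₂ := hr.trans ((min_le_right _ _).trans (min_le_left _ _))
  have k3 : r ≤ 1 / (1 + |κ|) := hr.trans ((min_le_right _ _).trans (min_le_right _ _))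
  have hr0 : 0 ≤ r := dist_nonneg.trans h1
  have hκ : |κ| * r ^ 2 ≤ 1 := by
    have h4 : (1 + |κ|) * r ≤ 1 := by
      rw [le_div_iff₀ hK] at k3
      linarith
    have h5 : |κ| * r ≤ 1 := by linarith only [h4, hr0]
    have h6 : r ≤ 1 := by linarith only [mul_nonneg (abs_nonneg κ) hr0, h4]
    have h7 : |κ| * r * r ≤ 1 * 1 := mul_le_mul h5 h6 hr0 zero_le_one
    linarith [h7, pow_two r]
  have hCr : 0 ≤ C * r ^ 6 := by positivity
  have T : ∀ a b : M, dist a b ≤ dist z a + dist z b := fun a b => by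
    have := dist_triangle a z b
    rwa [dist_comm a z] at this
  have T' : ∀ a b : M, |dist z a - dist z b| ≤ dist a b := fun a b => by
    have := abs_dist_sub_le a b z
    rwa [dist_comm a z, dist_comm b z] at this
  rcases eq_or_ne z x₁ with e1 | e1
  · subst e1
    have := lss_degen (κ := κ) dist_nonneg dist_nonneg h2 h3 hκ dist_nonneg (T x₂ x₃)
    simp only [dist_self] at *
    linarith only [this, hCr]
  rcases eq_or_ne z x₂ with e2 | e2
  · subst e2
    have := lss_degen (κ := κ) dist_nonneg dist_nonneg h1 h3 hκ dist_nonneg (T x₁ x₃)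
    rw [dist_comm x₁ z]
    simp only [dist_self] at *
    linarith only [this, hCr]
  rcases eq_or_ne z x₃ with e3 | e3
  · subst e3
    have := lss_degen (κ := κ) dist_nonneg dist_nonneg h1 h2 hκ dist_nonneg (T x₁ x₂)
    rw [dist_comm x₁ z, dist_comm x₂ z]
    simp only [dist_self] at *
    linarith only [this, hCr]
  exact H2 _ _ _ _ _ _ r (dist_pos.2 e1) (dist_pos.2 e2) (dist_pos.2 e3) h1 h2 h3 k2
    (T' _ _) (T _ _) (T' _ _) (T _ _) (T' _ _) (T _ _)
    (H1 z x₁ x₂ x₃ hz e1 e2 e3 (h1.trans k1) (h2.trans k1) (h3.trans k1))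

end Vale.Agent.P233.H154
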